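import Vale.Agent.P225.System.Trunc
import Vale.Agent.P225.System.StageExact.Defs
import Vale.Agent.P225.System.Residual.Band

/-!
P225, module F: the residual applied to vectors. The jump of a segment only multiplies the growth of
the reference up to the end of its control, which is what the geometric waits beat.
-/

noncomputable section

namespace Vale.Agent.P225

open Matrix SU2 Set Vale.Agent.P225.Trunc
open scoped ComplexOrder Matrix.Norms.L2Operator

/-- Supported on the gauge blocks that meet the band. -/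
def BandSupp (G : Fin 3) {K : ℕ} (X : Op (PntK K)) : Prop :=
  ∀ x y, blkLab G x.out ∉ bandBlocks G → X x y = 0

variable {d : PathData} {r₂ β φ₀ : ℝ}

/-- One step of the recursion, applied to a matrix. -/
theorem residual_apply (hd : d.Good r₂ β φ₀) {p : Param} (hp : InBox d p) (K i : ℕ) {l : ℕ}
    (hl : l < (d.plan (d.j₀ + i)).length) (X : Op (PntK K)) :
    ‖(truncW d r₂ β p K (segEnd d i l) - freeDiag d r₂ β K (segEnd d i l)) * X‖ ≤
      Real.exp (-(49 / 10) * (segEnd d i l - segStart d i l)) *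
          ‖(truncW d r₂ β p K (segStart d i l) - freeDiag d r₂ β K (segStart d i l)) *
            (segBack d r₂ β p K i l (segEnd d i l) * X)‖ +
        ‖(segRef d r₂ β p K i l (segEnd d i l) - freeDiag d r₂ β K (segEnd d i l)) * X‖ := by
  obtain ⟨hV0, hV, -, hR⟩ := segRef_spec hd hp K i hl
  obtain ⟨-, -, -, hg, hs⟩ := Trunc.seg_times hd hl
  obtain ⟨hW, hWp⟩ := (truncW_spec hd hp K).2 (segEnd d i l)
  have hab := Trunc.seg_le hd hl
  obtain ⟨Q, hQ, h⟩ := riccati_diff_mul_le (c := 49 / 10) hab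
    (fun t ht => Trunc.damp_ge hd (hg.trans ht.1)) (Trunc.pathDamp_cont hd).continuousOn
    (fun t ht => hW t ⟨hs.trans ht.1, ht.2⟩) hV (fun t ht => hWp t ⟨hs.trans ht.1, ht.2⟩)
  have hQR : Q (segEnd d i l) = segBack d r₂ β p K i l (segEnd d i l) := by
    rw [back_trans (Trunc.riccati_cont hV) le_rfl hab hQ hR _ (right_mem_Icc.2 hab), hQ.1, one_mul]
  have h1 := h X
  rw [hQR, hV0] at h1
  calc _ = ‖(truncW d r₂ β p K (segEnd d i l) - segRef d r₂ β p K i l (segEnd d i l)) * X +
        (segRef d r₂ β p K i l (segEnd d i l) - freeDiag d r₂ β K (segEnd d i l)) * X‖ := by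
        rw [← add_mul, sub_add_sub_cancel]
    _ ≤ _ := (norm_add_le _ _).trans (add_le_add_left h1 _)

/-- On band blocks the jump costs the decay after the control times the growth before its end. -/
theorem jump_apply (period : ℕ) (plan : ℕ → List StagePlan) (box : ℝ) :
    ∃ (C A : ℝ) (j₁ : ℕ), 0 < C ∧ 0 < A ∧ ∀ (d : PathData) (r₂ β φ₀ : ℝ), d.period = period →
      d.plan = plan → d.box = box → j₁ ≤ d.j₀ → d.Good r₂ β φ₀ → ∀ p : Param, InBox d p →
      ∀ (K : ℕ), 40 ≤ K → ∀ (i l : ℕ) (hl : l < (d.plan (d.j₀ + i)).length) (X : Op (PntK K)),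
        BandSupp ((d.plan (d.j₀ + i))[l]).gauge X →
        ‖(segRef d r₂ β p K i l (segEnd d i l) - freeDiag d r₂ β K (segEnd d i l)) * X‖ ≤
          C * speed (d.j₀ + i) * Real.exp (-(24 / 5) * (segEnd d i l - ctrlEnd d i l)) *
            Real.exp (A * (ctrlEnd d i l - segStart d i l)) *
            ‖segBack d r₂ β p K i l (segEnd d i l) * X‖ := by
  obtain ⟨C, A, j₁, hC, hA, hband⟩ := Residual.band_bounds period plan box
  refine ⟨C, A, j₁, hC, hA, ?_⟩
  intro d r₂ β φ₀ e1 e2 e3 hj hd p hp K _ i l hl X hX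
  set P := Residual.bandProj ((d.plan (d.j₀ + i))[l]).gauge K with hP
  have hB := hband d r₂ β φ₀ e1 e2 e3 hj hd p hp K i l hl
  obtain ⟨-, hV, hVp, hR⟩ := segRef_spec hd hp K i hl
  obtain ⟨hc, hc2, -, hg, hs⟩ := Trunc.seg_times hd hl
  set a := segStart d i l
  set c := ctrlEnd d i l
  set b := segEnd d i l
  have hε := speed_pos (one_le_idx hd i)
  have hcb : c ≤ b := by
    have : 0 ≤ 2 / speed (d.j₀ + i) := by positivity
    linarith
  have hVc := Trunc.riccati_cont hV
  have hsub : Icc c b ⊆ Icc a b := Icc_subset_Icc_left hc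
  have hsub' : Icc a c ⊆ Icc a b := Icc_subset_Icc_right hcb
  obtain ⟨Q, hQ, h⟩ := riccati_diff_mul_le (c := 49 / 10) (A := truncOp d p K) (ν := pathDamp d)
    (W := freeDiag d r₂ β K) (V := segRef d r₂ β p K i l) hcb
    (fun t ht => Trunc.damp_ge hd ((hg.trans hc).trans ht.1))
    (Trunc.pathDamp_cont hd).continuousOn
    (Trunc.freeDiag_riccati hd (hs.trans hc) fun t ht => Trunc.seg_op_tail hd p K hl ht)
    (fun t ht => hV t (hsub ht))
    (fun t ht => Trunc.freeDiag_psd hd ((hs.trans hc).trans ht.1))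
  have hcomm : ∀ t ∈ Icc a b, Commute P (segRef d r₂ β p K i l t) :=
    fun t ht => Residual.bandProj_commute hd hp K i hl ht
  have hX' : P * X = X := Residual.bandProj_mul hX
  have hY : P * (Q b * X) = Q b * X := by
    rw [← mul_assoc, (back_commute (hVc.mono hsub) hQ (fun t ht => hcomm t (hsub ht)) b
      (right_mem_Icc.2 hcb)).eq, mul_assoc, hX']
  have hgrow := (Residual.norm_le_back hc (hVc.mono hsub')
    ⟨hR.1, fun t ht => hR.2 t (hsub' ht)⟩ (Residual.bandProj_sq _ _)
    (fun t ht => hcomm t (hsub' ht)) (fun t ht => (hB t (hsub' ht)).1) hY).2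
  rw [← mul_assoc _ (Q b) X, ← back_trans hVc hc hcb hR hQ b (right_mem_Icc.2 hcb)] at hgrow
  calc _ = ‖(freeDiag d r₂ β K b - segRef d r₂ β p K i l b) * X‖ := by
        rw [← norm_neg, ← neg_mul, neg_sub]
    _ ≤ Real.exp (-(49 / 10) * (b - c)) *
          ‖(freeDiag d r₂ β K c - segRef d r₂ β p K i l c) * (Q b * X)‖ := h X
    _ ≤ Real.exp (-(24 / 5) * (b - c)) * (C * speed (d.j₀ + i) *
          (Real.exp (A * (c - a)) * ‖segBack d r₂ β p K i l b * X‖)) := by
        refine mul_le_mul (Real.exp_le_exp.2 (by nlinarith)) ?_ (norm_nonneg _) (Real.exp_nonneg _)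
        rw [← hY, ← mul_assoc _ P]
        refine (norm_mul_le _ _).trans
          (mul_le_mul (hB c ⟨hc, hcb⟩).2 hgrow (norm_nonneg _) (by positivity))
    _ = _ := by ring

/-- The reference keeps band blocks and grows at most exponentially on them. -/
theorem segBack_bandSupp (period : ℕ) (plan : ℕ → List StagePlan) (box : ℝ) :
    ∃ (A : ℝ) (j₁ : ℕ), 0 < A ∧ ∀ (d : PathData) (r₂ β φ₀ : ℝ), d.period = period →
      d.plan = plan → d.box = box → j₁ ≤ d.j₀ → d.Good r₂ β φ₀ → ∀ p : Param, InBox d p →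
      ∀ (K : ℕ), 40 ≤ K → ∀ (i l : ℕ) (hl : l < (d.plan (d.j₀ + i)).length) (X : Op (PntK K)),
        BandSupp ((d.plan (d.j₀ + i))[l]).gauge X →
        BandSupp ((d.plan (d.j₀ + i))[l]).gauge (segBack d r₂ β p K i l (segEnd d i l) * X) ∧
          ‖X‖ ≤ Real.exp (A * (segEnd d i l - segStart d i l)) *
            ‖segBack d r₂ β p K i l (segEnd d i l) * X‖ := by
  obtain ⟨C, A, j₁, -, hA, hband⟩ := Residual.band_bounds period plan box
  refine ⟨A, j₁, hA, ?_⟩
  intro d r₂ β φ₀ e1 e2 e3 hj hd p hp K _ i l hl X hX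
  obtain ⟨-, hV, -, hR⟩ := segRef_spec hd hp K i hl
  obtain ⟨h1, h2⟩ := Residual.norm_le_back (Trunc.seg_le hd hl) (Trunc.riccati_cont hV) hR
    (Residual.bandProj_sq _ _) (fun t ht => Residual.bandProj_commute hd hp K i hl ht)
    (fun t ht => (hband d r₂ β φ₀ e1 e2 e3 hj hd p hp K i l hl t ht).1)
    (Residual.bandProj_mul hX)
  exact ⟨Residual.of_bandProj_mul h1, h2⟩

end Vale.Agent.P225
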