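import Vale.Agent.P225.System.Trunc
import Vale.Agent.P225.System.Decay.Weight

/-!
P225, module F: backward maps of the truncated systems: the equation in the initial time and rapid
decay in the labels, uniformly in the truncation, the parameters and the time.
-/

noncomputable section

namespace Vale.Agent.P225

open Matrix SU2 Set
open scoped ComplexOrder Matrix.Norms.L2Operator

/-- The polynomial weight `(size + 1)^m`. -/
def sizeWgt {K : ℕ} (m : ℕ) : Op (PntK K) :=
  diagonal fun x => ((((ptSize x.out : ℝ) + 1) ^ m : ℝ) : ℂ)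

variable {d : PathData} {r₂ β φ₀ : ℝ}

theorem truncBack_norm_le (hd : d.Good r₂ β φ₀) {p : Param} (hp : InBox d p) (K : ℕ) {a b : ℝ}
    (ha : startTime r₂ ≤ a) (hab : a ≤ b) : ‖truncBack d r₂ β p K a b‖ ≤ 1 :=
  Decay.back_one_le hd hp K ha hab

/-- The columns `a ↦ R_a(b) v` solve `c'' + ν c' = A c`. -/
theorem truncBack_deriv (hd : d.Good r₂ β φ₀) {p : Param} (hp : InBox d p) (K : ℕ) {a b : ℝ}
    (ha : startTime r₂ < a) (hab : a < b) :
    HasDerivAt (fun u => truncBack d r₂ β p K u b)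
        (truncW d r₂ β p K a * truncBack d r₂ β p K a b) a ∧
      HasDerivAt (fun u => truncW d r₂ β p K u * truncBack d r₂ β p K u b)
        (truncOp d p K a * truncBack d r₂ β p K a b -
          pathDamp d a • (truncW d r₂ β p K a * truncBack d r₂ β p K a b)) a := by
  have h1 := Decay.back_deriv hd hp K ha hab
  have h2 := ((truncW_spec hd hp K).2 b).1 a ⟨ha.le, hab.le⟩
  refine ⟨h1, (h2.mul h1).congr_deriv ?_⟩
  simp only [sub_mul, smul_mul_assoc, mul_assoc]
  abel

/-- Composition of backward maps. -/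
theorem truncBack_trans (hd : d.Good r₂ β φ₀) {p : Param} (hp : InBox d p) (K : ℕ) {a b c : ℝ}
    (ha : startTime r₂ ≤ a) (hab : a ≤ b) (hbc : b ≤ c) :
    truncBack d r₂ β p K a c = truncBack d r₂ β p K a b * truncBack d r₂ β p K b c :=
  Decay.back_comp hd hp K ha hab hbc

/-- Rapid decay of values and derivatives one unit before the end. The constant may depend on the
path but not on the truncation, the parameters or the time. -/
theorem truncBack_decay (period : ℕ) (plan : ℕ → List StagePlan) (box : ℝ) :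
    ∃ j₁ : ℕ, ∀ (d : PathData) (r₂ β φ₀ : ℝ), d.period = period → d.plan = plan → d.box = box →
      j₁ ≤ d.j₀ → d.Good r₂ β φ₀ → ∀ m : ℕ, ∃ C : ℝ, ∀ p : Param, InBox d p → ∀ (K : ℕ) (a b : ℝ),
        startTime r₂ ≤ a → a + 2 ≤ b →
          ‖sizeWgt m * truncBack d r₂ β p K a b‖ ≤ C ∧
          ‖sizeWgt m * (truncW d r₂ β p K a * truncBack d r₂ β p K a b)‖ ≤ C := by
  obtain ⟨j₁, hgain⟩ := Decay.exists_gain period plan box
  refine ⟨j₁, fun d r₂ β φ₀ hper hplan hbox hj hd m => ?_⟩
  obtain ⟨κ, C, hκ, hgain⟩ := hgain d r₂ β φ₀ hper hplan hbox hj hd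
  obtain ⟨B, hB⟩ := Decay.size_le_exp m hκ
  refine ⟨Real.exp B * C, fun p hp K a b ha hab => ?_⟩
  obtain ⟨h1, h2⟩ := hgain p hp K a b ha hab
  exact ⟨(Decay.wgt_log_mul_le m (hB K) _).trans (mul_le_mul_of_nonneg_left h1 (Real.exp_pos B).le),
    (Decay.wgt_log_mul_le m (hB K) _).trans (mul_le_mul_of_nonneg_left h2 (Real.exp_pos B).le)⟩

/-- Up to the first cluster the backward map is the free diagonal. -/
theorem truncBack_pre (hd : d.Good r₂ β φ₀) {p : Param} (hp : InBox d p) (K : ℕ) {a b : ℝ}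
    (ha : startTime r₂ ≤ a) (hab : a ≤ b) (hb : b ≤ clusterStart d 0) :
    truncBack d r₂ β p K a b =
      diagonal fun x => ((Real.exp (-∫ u in a..b, freeRate d r₂ β (lab x.out) u) : ℝ) : ℂ) :=
  Decay.back_pre hd hp K ha hab hb

end Vale.Agent.P225
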