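import Vale.Agent.P225.Path.Metric
import Vale.Agent.P225.Reach.Defs
import Vale.Agent.P225.Group.Elementary

/-!
P225, module F: the concrete system: band and truncated index sets, adapted basis, the control-free
path and its scalar rates.
-/

noncomputable section

namespace Vale.Agent.P225

open Matrix SU2 Real
open scoped ContDiff

/-- Points of the band: the columns that are followed. -/
abbrev BPt := {x : PntK 20 // lab x.out ∈ band}

/-- The remaining nonconstant points below `K`. -/
abbrev QPt (K : ℕ) := {x : PntK K // lab x.out ∉ band ∧ lab x.out ≠ 0}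

/-- A band point below `K`. -/
def BPt.toK {K : ℕ} (hK : 20 ≤ K) (x : BPt) : PntK K :=
  ⟨⟨fun k => Fin.castLE (by omega) (x.1.1.1 k), x.1.1.2⟩, x.1.2⟩

/-- Unsigned index: tesseral for even labels, a pair for odd ones. -/
def unsIdx (a i : ℕ) : ℕ := if a % 2 = 0 then i else min i (a - i)

theorem unsIdx_lt {a i : ℕ} (h : i ≤ a) : unsIdx a i < umult a := by
  unfold unsIdx umult
  split <;> rename_i ha
  · omega
  · omega

/-- The unsigned point of a band point in the adapted basis. -/
def uOf (x : BPt) : UPoint where
  lbl := lab x.1.out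
  idx k := unsIdx (lab x.1.out k) (idx x.1.out k)
  mem := x.2
  lt k := unsIdx_lt (Nat.lt_succ_iff.1 (x.1.2 k).2)

/-- Change from the point basis to the adapted basis on the band: columns are the adapted vectors. -/
def adaptBasis : Matrix BPt BPt ℂ := fun x y =>
  if h : x.1.1 = y.1.1 then ∏ k, tess (x.1.1.1 k) (x.1.2 k) (Fin.cast (by rw [h]) (y.1.2 k))
  else 0

/-- Parameters of the control-free path, read off from its matrix. -/
def basePar (d : PathData) (t : ℝ) : Fin 3 → ℝ :=
  let Q := pathQ d (fun _ _ _ => 0) t
  let q := Q (false, 0) (true, 0)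
  fun k =>
    if k = pathGauge d t then q
    else if k = pathGauge d t + 1 then Q (false, 0) (false, 0) - q
    else Q (true, 0) (true, 0) - q

/-- Coefficient of a label triple on the control-free path. -/
def baseCoef (d : PathData) (l : Lbl) (t : ℝ) : ℝ := ∑ k, basePar d t k * cas (l k)

/-- The damping `ν`, the same for all parameters. -/
def pathDamp (d : PathData) (t : ℝ) : ℝ :=
  5 + deriv (fun u => Real.log ((toLink (pathQ d (fun _ _ _ => 0) u))⁻¹).det) t / 2

/-- Logarithmic derivative of the regular core solution. -/
def coreRate (β : ℝ) (l : Lbl) (t : ℝ) : ℝ :=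
  let s := (l 2 : ℝ) * (l 2 + 2) / β * Real.exp (2 * t)
  l 1 + 2 * s * deriv (coreFn (l 1)) s / coreFn (l 1) s

/-- The starting time of the analysis, inside the core. -/
def startTime (r₂ : ℝ) : ℝ := Real.log r₂ - 1

open Classical in
/-- The rate of a triple along the control-free path, starting from the regular core solution. -/
def freeRate (d : PathData) (r₂ β : ℝ) (l : Lbl) : ℝ → ℝ :=
  if h : ∃ w : ℝ → ℝ, w (startTime r₂) = coreRate β l (startTime r₂) ∧
      ∀ t, startTime r₂ ≤ t →
        HasDerivAt w (baseCoef d l t - w t ^ 2 - pathDamp d t * w t) t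
  then h.choose else 0

/-- Casimir sum `∑ a (a+2) / 4`. -/
def casSum (l : Lbl) : ℝ := (cas4 l : ℝ) / 4

end Vale.Agent.P225
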