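import Vale.Agent.P225.System.Free
import Vale.Agent.P225.Riccati.Smoothing
import Vale.Agent.P225.Stage.Gauge
import Vale.Agent.P225.System.Trunc.Rates

/-!
P225, module F: the truncated systems, their solutions from the core and the references of the
segments. Segment `(i, l)` is stage `l` of cluster `j₀ + i`, the last one including the dwell.
-/

noncomputable section

namespace Vale.Agent.P225

open Matrix SU2 Set
open scoped ComplexOrder Matrix.Norms.L2Operator

variable (d : PathData) (r₂ β : ℝ)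

/-- The truncated operator at time `t`. -/
def truncOp (p : Param) (K : ℕ) (t : ℝ) : Op (PntK K) :=
  gaugeMat K (pathGauge d t) (pathOp d p t)

/-- The diagonal of free rates. -/
def freeDiag (K : ℕ) (t : ℝ) : Op (PntK K) :=
  diagonal fun x => ((freeRate d r₂ β (lab x.out) t : ℝ) : ℂ)

open Classical in
/-- The nonnegative solution from the core. -/
def truncW (p : Param) (K : ℕ) : ℝ → Op (PntK K) :=
  if h : ∃ W : ℝ → Op (PntK K), W (startTime r₂) = freeDiag d r₂ β K (startTime r₂) ∧
      ∀ b, IsRiccati (truncOp d p K) (pathDamp d) W (startTime r₂) b ∧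
        ∀ t ∈ Icc (startTime r₂) b, (W t).PosSemidef
  then h.choose else 0

open Classical in
/-- Its backward map from `a`. -/
def truncBack (p : Param) (K : ℕ) (a : ℝ) : ℝ → Op (PntK K) :=
  if h : ∃ R : ℝ → Op (PntK K), ∀ b, IsBack (truncW d r₂ β p K) R a b then h.choose else 0

/-- Start of segment `(i, l)`. -/
abbrev segStart (i l : ℕ) : ℝ := stageStart d i l

/-- End of segment `(i, l)`. -/
def segEnd (i l : ℕ) : ℝ :=
  if l + 1 < (d.plan (d.j₀ + i)).length then stageStart d i (l + 1) else clusterStart d (i + 1)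

/-- End of the control of stage `(i, l)`. -/
def ctrlEnd (i l : ℕ) : ℝ :=
  stageStart d i l +
    (1 + (((d.plan (d.j₀ + i))[l]?.map StagePlan.len).getD 0 : ℕ) : ℝ) / speed (d.j₀ + i)

open Classical in
/-- The reference of a segment: the solution restarted at the free diagonal. -/
def segRef (p : Param) (K i l : ℕ) : ℝ → Op (PntK K) :=
  if h : ∃ V : ℝ → Op (PntK K), V (segStart d i l) = freeDiag d r₂ β K (segStart d i l) ∧
      IsRiccati (truncOp d p K) (pathDamp d) V (segStart d i l) (segEnd d i l) ∧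
        ∀ t ∈ Icc (segStart d i l) (segEnd d i l), (V t).PosSemidef
  then h.choose else 0

open Classical in
/-- The backward map of the reference. -/
def segBack (p : Param) (K i l : ℕ) : ℝ → Op (PntK K) :=
  if h : ∃ R : ℝ → Op (PntK K),
      IsBack (segRef d r₂ β p K i l) R (segStart d i l) (segEnd d i l)
  then h.choose else 0

/-- A weight of a gauge block, comparable with the square root of the Casimir sum. -/
def blkWeight (G : Fin 3) {K : ℕ} (x : PntK K) : ℝ :=
  Real.sqrt (cas (lab x.out (G + 1)) + cas (lab x.out (G + 2)))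

variable {d r₂ β} {φ₀ : ℝ}

namespace Trunc

theorem blkWeight_nonneg (G : Fin 3) {K : ℕ} (x : PntK K) : 0 ≤ blkWeight G x := Real.sqrt_nonneg _

theorem blkWeight_bounds (G : Fin 3) {K : ℕ} (x : PntK K) :
    blkWeight G x ≤ Real.sqrt (casSum (lab x.out)) ∧
      Real.sqrt (casSum (lab x.out)) ≤ 2 * blkWeight G x := by
  have h := casSum_eq G (lab x.out)
  have h0 : 0 ≤ cas (lab x.out G) := by unfold cas; positivity
  have hG : lab x.out G ≤ lab x.out (G + 1) + lab x.out (G + 2) := by
    obtain ⟨-, h1, h2, h3⟩ := lab_ok x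
    fin_cases G <;> simp only [Fin.mk_zero, Fin.mk_one, Fin.reduceFinMk, Fin.reduceAdd] <;> omega
  constructor
  · exact Real.sqrt_le_sqrt (by linarith)
  · rw [show (2 : ℝ) * blkWeight G x =
        Real.sqrt (4 * (cas (lab x.out (G + 1)) + cas (lab x.out (G + 2)))) by
      rw [Real.sqrt_mul (by norm_num), show Real.sqrt 4 = 2 by
        rw [show (4 : ℝ) = 2 ^ 2 by norm_num, Real.sqrt_sq]; norm_num]
      rfl]
    refine Real.sqrt_le_sqrt ?_
    rw [h]
    set a : ℝ := ((lab x.out G : ℕ) : ℝ)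
    set b : ℝ := ((lab x.out (G + 1) : ℕ) : ℝ)
    set c : ℝ := ((lab x.out (G + 2) : ℕ) : ℝ)
    have ha : a ≤ b + c := by simp only [a, b, c]; exact_mod_cast hG
    have : 0 ≤ a := Nat.cast_nonneg _
    have : 0 ≤ b := Nat.cast_nonneg _
    have : 0 ≤ c := Nat.cast_nonneg _
    show a * (a + 2) / 4 + (b * (b + 2) / 4 + c * (c + 2) / 4) ≤
      4 * (b * (b + 2) / 4 + c * (c + 2) / 4)
    nlinarith [sq_nonneg (b - c)]

theorem freeDiag_psd (hd : d.Good r₂ β φ₀) {K : ℕ} {t : ℝ} (ht : startTime r₂ ≤ t) :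
    (freeDiag d r₂ β K t).PosSemidef :=
  rdiag_posSemidef fun x => freeRate_nonneg hd (lab x.out) ht

theorem freeDiag_deriv (hd : d.Good r₂ β φ₀) {K : ℕ} {t : ℝ} (ht : startTime r₂ ≤ t) :
    HasDerivAt (freeDiag d r₂ β K) (baseDiag d K t - freeDiag d r₂ β K t * freeDiag d r₂ β K t -
      pathDamp d t • freeDiag d r₂ β K t) t := by
  have h := hasDerivAt_rdiag (f := fun (x : PntK K) s => freeRate d r₂ β (lab x.out) s)
    fun x => (freeRate_spec hd (lab x.out)).2 t ht
  unfold freeDiag baseDiag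
  rw [rdiag_mul, rdiag_smul, rdiag_sub, rdiag_sub]
  simpa only [← sq] using h

/-- The control-free operator gives the free solution. -/
theorem freeDiag_riccati (hd : d.Good r₂ β φ₀) {p : Param} {K : ℕ} {a b : ℝ}
    (ha : startTime r₂ ≤ a) (h : ∀ t ∈ Icc a b, truncOp d p K t = baseDiag d K t) :
    IsRiccati (truncOp d p K) (pathDamp d) (freeDiag d r₂ β K) a b := fun t ht => by
  rw [h t ht]; exact freeDiag_deriv hd (ha.trans ht.1)

theorem segEnd_cases {i l : ℕ} (hl : l < (d.plan (d.j₀ + i)).length) :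
    (l + 1 < (d.plan (d.j₀ + i)).length ∧ segEnd d i l = stageStart d i (l + 1)) ∨
      (l + 1 = (d.plan (d.j₀ + i)).length ∧ segEnd d i l = clusterStart d (i + 1)) := by
  unfold segEnd
  by_cases h : l + 1 < (d.plan (d.j₀ + i)).length
  · exact Or.inl ⟨h, if_pos h⟩
  · exact Or.inr ⟨by omega, if_neg h⟩

theorem ctrlEnd_eq {i l : ℕ} (hl : l < (d.plan (d.j₀ + i)).length) :
    ctrlEnd d i l =
      stageStart d i l + (1 + (((d.plan (d.j₀ + i))[l]).len : ℝ)) / speed (d.j₀ + i) := by
  simp [ctrlEnd, List.getElem?_eq_getElem hl]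

theorem seg_times (hd : d.Good r₂ β φ₀) {i l : ℕ} (hl : l < (d.plan (d.j₀ + i)).length) :
    stageStart d i l ≤ ctrlEnd d i l ∧ ctrlEnd d i l + 2 / speed (d.j₀ + i) ≤ segEnd d i l ∧
      stageStart d i l + 3 ≤ segEnd d i l ∧ (d.j₀ : ℝ) ^ 6 ≤ stageStart d i l ∧
      startTime r₂ ≤ stageStart d i l := by
  set σ := (d.plan (d.j₀ + i))[l] with hσ
  have hε := speed_pos (one_le_idx hd i)
  have h0 : (0 : ℝ) ≤ σ.len := Nat.cast_nonneg _
  have h1 : stageStart d i (l + 1) ≤ segEnd d i l := by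
    rcases segEnd_cases hl with ⟨-, he⟩ | ⟨-, he⟩ <;> rw [he]
    exact (stageStart_lt_cluster hd (Nat.succ_le_of_lt hl)).le
  have h2 := stageStart_succ hl
  have h3 : (1 + (σ.len : ℝ)) / speed (d.j₀ + i) + 2 / speed (d.j₀ + i) ≤
      σ.dur / speed (d.j₀ + i) := by
    rw [← add_div]
    refine div_le_div_of_nonneg_right ?_ hε.le
    have : (0 : ℝ) ≤ σ.wait + σ.dwell := by positivity
    simp only [StagePlan.dur]; linarith
  have h4 : 3 ≤ σ.dur / speed (d.j₀ + i) := by
    rw [le_div_iff₀ hε]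
    nlinarith [three_le_dur σ, speed_le_one (one_le_idx hd i)]
  have hg := stageStart_ge hd hl.le
  refine ⟨?_, ?_, ?_, hg, startTime_le hd hg⟩
  · rw [ctrlEnd_eq hl, le_add_iff_nonneg_right]; positivity
  · rw [ctrlEnd_eq hl]; linarith
  · linarith

theorem seg_le (hd : d.Good r₂ β φ₀) {i l : ℕ} (hl : l < (d.plan (d.j₀ + i)).length) :
    segStart d i l ≤ segEnd d i l := by
  have := (seg_times hd hl).2.2.1
  show stageStart d i l ≤ _
  linarith

/-- After the control a segment carries the free operator. -/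
theorem seg_op_tail (hd : d.Good r₂ β φ₀) (p : Param) (K : ℕ) {i l : ℕ}
    (hl : l < (d.plan (d.j₀ + i)).length) {t : ℝ} (h : t ∈ Icc (ctrlEnd d i l) (segEnd d i l)) :
    truncOp d p K t = baseDiag d K t := by
  show pathMat d p K t = _
  by_cases ht : t < stageStart d i (l + 1)
  · refine pathMat_stage_free hd p hl ⟨(seg_times hd hl).1.trans h.1, ht⟩ (Or.inr ?_)
    have hε := speed_pos (one_le_idx hd i)
    have := h.1
    rw [ctrlEnd_eq hl] at this
    rw [mul_comm, ← div_le_iff₀ hε, add_comm ((((d.plan (d.j₀ + i))[l]).len : ℝ))]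
    linarith
  · rcases segEnd_cases hl with ⟨-, he⟩ | ⟨hl', he⟩
    · obtain rfl : t = stageStart d i (l + 1) := le_antisymm (he ▸ h.2) (not_lt.1 ht)
      exact (pathMat_boundary hd p (Nat.succ_le_of_lt hl)).1
    · exact (pathMat_dwell hd p ⟨hl' ▸ not_lt.1 ht, he ▸ h.2⟩).2

end Trunc

open Trunc

theorem truncOp_spec (hd : d.Good r₂ β φ₀) {p : Param} (hp : InBox d p) (K : ℕ) :
    Continuous (truncOp d p K) ∧ ∀ t, (truncOp d p K t).PosSemidef := by
  exact ⟨continuous_pathMat hd hp, pathMat_posSemidef hd hp⟩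

theorem truncW_spec (hd : d.Good r₂ β φ₀) {p : Param} (hp : InBox d p) (K : ℕ) :
    truncW d r₂ β p K (startTime r₂) = freeDiag d r₂ β K (startTime r₂) ∧
      ∀ b, IsRiccati (truncOp d p K) (pathDamp d) (truncW d r₂ β p K) (startTime r₂) b ∧
        ∀ t ∈ Icc (startTime r₂) b, (truncW d r₂ β p K t).PosSemidef := by
  have h : ∃ W : ℝ → Op (PntK K), W (startTime r₂) = freeDiag d r₂ β K (startTime r₂) ∧
      ∀ b, IsRiccati (truncOp d p K) (pathDamp d) W (startTime r₂) b ∧
        ∀ t ∈ Icc (startTime r₂) b, (W t).PosSemidef := by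
    choose f h0 hf hfp using fun k : ℕ => exists_riccati (truncOp_spec hd hp K).1 (pathDamp_cont hd)
      (truncOp_spec hd hp K).2 (freeDiag_psd hd (K := K) le_rfl) (startTime r₂) (startTime r₂ + k + 1)
    obtain ⟨W, hW0, hW⟩ := exists_glue (f := f) (a := startTime r₂) fun k l hkl =>
      riccati_unique (pathDamp_cont hd).continuousOn (hf k)
        (fun t ht => hf l t ⟨ht.1, ht.2.trans (by gcongr)⟩) ((h0 k).trans (h0 l).symm)
    refine ⟨W, hW0.trans (h0 0), fun b => ⟨fun t ht => ?_, fun t ht => ?_⟩⟩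
    · obtain ⟨k, hk, he⟩ := hW t ht.1
      rw [he.eq_of_nhds]
      exact (hf k t ⟨ht.1, hk⟩).congr_of_eventuallyEq he
    · obtain ⟨k, hk, he⟩ := hW t ht.1
      rw [he.eq_of_nhds]
      exact hfp k t ⟨ht.1, hk⟩
  rw [truncW, dif_pos h]
  exact h.choose_spec

theorem truncBack_spec (hd : d.Good r₂ β φ₀) {p : Param} (hp : InBox d p) (K : ℕ) {a : ℝ}
    (ha : startTime r₂ ≤ a) :
    ∀ b, IsBack (truncW d r₂ β p K) (truncBack d r₂ β p K a) a b := by
  have hc : ∀ b, ContinuousOn (truncW d r₂ β p K) (Icc a b) := fun b =>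
    (riccati_cont ((truncW_spec hd hp K).2 b).1).mono (Icc_subset_Icc_left ha)
  have h : ∃ R : ℝ → Op (PntK K), ∀ b, IsBack (truncW d r₂ β p K) R a b := by
    choose f hf using fun k : ℕ => exists_back (hc (a + k + 1))
    obtain ⟨R, hR0, hR⟩ := exists_glue (f := f) (a := a) fun k l hkl t ht => by
      have := back_trans (hc (a + k + 1)) le_rfl (by linarith [Nat.cast_nonneg (α := ℝ) k]) (hf k)
        ⟨(hf l).1, fun s hs => (hf l).2 s ⟨hs.1, hs.2.trans (by gcongr)⟩⟩ t ht
      rwa [(hf k).1, one_mul] at this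
    refine ⟨R, fun b => ⟨hR0.trans (hf 0).1, fun t ht => ?_⟩⟩
    obtain ⟨k, hk, he⟩ := hR t ht.1
    rw [he.eq_of_nhds]
    exact ((hf k).2 t ⟨ht.1, hk⟩).congr_of_eventuallyEq he
  rw [truncBack, dif_pos h]
  exact h.choose_spec

theorem segRef_spec (hd : d.Good r₂ β φ₀) {p : Param} (hp : InBox d p) (K i : ℕ) {l : ℕ}
    (hl : l < (d.plan (d.j₀ + i)).length) :
    segRef d r₂ β p K i l (segStart d i l) = freeDiag d r₂ β K (segStart d i l) ∧
      IsRiccati (truncOp d p K) (pathDamp d) (segRef d r₂ β p K i l) (segStart d i l) (segEnd d i l) ∧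
      (∀ t ∈ Icc (segStart d i l) (segEnd d i l), (segRef d r₂ β p K i l t).PosSemidef) ∧
      IsBack (segRef d r₂ β p K i l) (segBack d r₂ β p K i l) (segStart d i l) (segEnd d i l) := by
  have h : ∃ V : ℝ → Op (PntK K), V (segStart d i l) = freeDiag d r₂ β K (segStart d i l) ∧
      IsRiccati (truncOp d p K) (pathDamp d) V (segStart d i l) (segEnd d i l) ∧
        ∀ t ∈ Icc (segStart d i l) (segEnd d i l), (V t).PosSemidef :=
    exists_riccati (truncOp_spec hd hp K).1 (pathDamp_cont hd) (truncOp_spec hd hp K).2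
      (freeDiag_psd hd (seg_times hd hl).2.2.2.2) _ _
  have hV : segRef d r₂ β p K i l = h.choose := dif_pos h
  have h' : ∃ R : ℝ → Op (PntK K),
      IsBack (segRef d r₂ β p K i l) R (segStart d i l) (segEnd d i l) :=
    exists_back (hV ▸ riccati_cont h.choose_spec.2.1)
  refine ⟨hV ▸ h.choose_spec.1, hV ▸ h.choose_spec.2.1, hV ▸ h.choose_spec.2.2, ?_⟩
  rw [segBack, dif_pos h']
  exact h'.choose_spec

/-- Before the first cluster the truncated solution is the free diagonal. -/
theorem truncW_pre (hd : d.Good r₂ β φ₀) {p : Param} (hp : InBox d p) (K : ℕ) {t : ℝ}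
    (h0 : startTime r₂ ≤ t) (h1 : t ≤ clusterStart d 0) :
    truncW d r₂ β p K t = freeDiag d r₂ β K t := by
  obtain ⟨hW0, hW⟩ := truncW_spec hd hp K
  refine riccati_unique (pathDamp_cont hd).continuousOn (hW t).1
    (freeDiag_riccati hd le_rfl fun u hu => ?_) hW0 ⟨h0, le_rfl⟩
  exact (pathMat_pre hd p (hu.2.trans h1)).1

/-- The operator of a segment between `(1 ± k)` times the free one. -/
theorem Trunc.seg_op (period : ℕ) (plan : ℕ → List StagePlan) (box : ℝ) :
    ∃ K₁ : ℝ, 0 < K₁ ∧ ∀ (d : PathData) (r₂ β φ₀ : ℝ), d.period = period → d.plan = plan →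
      d.box = box → d.Good r₂ β φ₀ → ∀ p : Param, InBox d p →
      ∀ (K i l : ℕ) (hl : l < (d.plan (d.j₀ + i)).length), K₁ * speed (d.j₀ + i) ≤ 1 / 2 →
        ∀ t ∈ Icc (segStart d i l) (segEnd d i l),
          ((1 + K₁ * speed (d.j₀ + i)) • baseDiag d K t - truncOp d p K t).PosSemidef ∧
          (truncOp d p K t - (1 - K₁ * speed (d.j₀ + i)) • baseDiag d K t).PosSemidef ∧
          Commute (diagonal fun x =>
              ((blkWeight ((d.plan (d.j₀ + i))[l]).gauge x : ℝ) : ℂ) : Op (PntK K))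
            (truncOp d p K t) := by
  obtain ⟨K₁, hK₁, hnear⟩ :=
    stageQ_near (∑ k ∈ Finset.range period, ((plan k).map StagePlan.len).sum) box
  refine ⟨K₁, hK₁, fun d r₂ β φ₀ e1 e2 e3 hd p hp K i l hl hk => ?_⟩
  set σ := (d.plan (d.j₀ + i))[l] with hσ
  set k := K₁ * speed (d.j₀ + i) with hkdef
  have hk0 : 0 ≤ k := mul_nonneg hK₁.le (speed_pos (one_le_idx hd i)).le
  obtain ⟨hc, -, -, hg, hs⟩ := seg_times hd hl
  have hlen : σ.len ≤ ∑ k ∈ Finset.range period, ((plan k).map StagePlan.len).sum := by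
    subst e1 e2
    exact plan_len_le hd.isPlan _ hl
  intro t ht
  by_cases h : ctrlEnd d i l ≤ t
  · have hB : (baseDiag d K t).PosSemidef :=
      rdiag_posSemidef fun x => baseCoef_nonneg hd x (hs.trans ht.1)
    rw [seg_op_tail hd p K hl ⟨h, ht.2⟩]
    refine ⟨?_, ?_, rdiag_commute _ _⟩
    · rw [show (1 + k) • baseDiag d K t - baseDiag d K t = k • baseDiag d K t by module]
      exact posSemidef_real_smul hB hk0
    · rw [show baseDiag d K t - (1 - k) • baseDiag d K t = k • baseDiag d K t by module]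
      exact posSemidef_real_smul hB hk0
  · have ht' : t < stageStart d i (l + 1) := by
      have hε := speed_pos (one_le_idx hd i)
      have h3 : (1 + (σ.len : ℝ)) / speed (d.j₀ + i) ≤ σ.dur / speed (d.j₀ + i) := by
        refine div_le_div_of_nonneg_right ?_ hε.le
        have : (0 : ℝ) ≤ σ.wait + σ.dwell := by positivity
        simp only [StagePlan.dur]; linarith
      have h4 := not_le.1 h
      rw [ctrlEnd_eq hl, ← hσ] at h4
      rw [stageStart_succ hl, ← hσ]
      linarith
    obtain ⟨h1, h2⟩ := pathMat_stage hd p hl ⟨ht.1, ht'⟩ (K := K)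
    have hmem := hd.scale_mem t (by linarith [ht.1])
    obtain ⟨n1, n2⟩ := hnear σ (speed (d.j₀ + i)) (d.scale t) (p i l)
      (speed (d.j₀ + i) * (t - stageStart d i l)) hlen (fun m => e3 ▸ hp i l m)
      (speed_pos (one_le_idx hd i)).le hk hmem.1 hmem.2
    have h1' : truncOp d p K t = _ := h1
    rw [h1', h2]
    refine ⟨gauge_linkOp_le n1, gauge_linkOp_ge n2, rdiag_commute_of fun x y hne => ?_⟩
    have hb : SameBlk σ.gauge x.out y.out := by
      by_contra hb
      exact hne (if_neg hb)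
    simp only [blkWeight, hb.1, hb.2.1]

/-- The reference of a segment between `(1 ± k)` times the free diagonal. -/
theorem Trunc.seg_sandwich (period : ℕ) (plan : ℕ → List StagePlan) (box : ℝ) :
    ∃ K₁ : ℝ, 0 < K₁ ∧ ∀ (d : PathData) (r₂ β φ₀ : ℝ), d.period = period → d.plan = plan →
      d.box = box → d.Good r₂ β φ₀ → ∀ p : Param, InBox d p →
      ∀ (K i l : ℕ) (hl : l < (d.plan (d.j₀ + i)).length), K₁ * speed (d.j₀ + i) ≤ 1 / 2 →
        ∀ t ∈ Icc (segStart d i l) (segEnd d i l),
          ((1 + K₁ * speed (d.j₀ + i)) • freeDiag d r₂ β K t - segRef d r₂ β p K i l t).PosSemidef ∧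
          (segRef d r₂ β p K i l t - (1 - K₁ * speed (d.j₀ + i)) • freeDiag d r₂ β K t).PosSemidef ∧
          Commute (diagonal fun x =>
              ((blkWeight ((d.plan (d.j₀ + i))[l]).gauge x : ℝ) : ℂ) : Op (PntK K))
            (segRef d r₂ β p K i l t) := by
  obtain ⟨K₁, hK₁, hsegop⟩ := seg_op period plan box
  refine ⟨K₁, hK₁, fun d r₂ β φ₀ e1 e2 e3 hd p hp K i l hl hk => ?_⟩
  set σ := (d.plan (d.j₀ + i))[l] with hσ
  set k := K₁ * speed (d.j₀ + i) with hkdef
  have hk0 : 0 ≤ k := mul_nonneg hK₁.le (speed_pos (one_le_idx hd i)).le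
  obtain ⟨-, -, -, -, hs⟩ := seg_times hd hl
  have hop := hsegop d r₂ β φ₀ e1 e2 e3 hd p hp K i l hl hk
  obtain ⟨hV0, hV, hVp, -⟩ := segRef_spec hd hp K i hl
  have hν := (pathDamp_cont hd).continuousOn (s := Icc (segStart d i l) (segEnd d i l))
  have hFF : ∀ t ∈ Icc (segStart d i l) (segEnd d i l),
      (freeDiag d r₂ β K t * freeDiag d r₂ β K t).PosSemidef := fun t ht => by
    unfold freeDiag
    rw [rdiag_mul]
    exact rdiag_posSemidef fun x => mul_self_nonneg _
  have hFp := fun t (ht : t ∈ Icc (segStart d i l) (segEnd d i l)) =>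
    freeDiag_psd hd (K := K) (hs.trans ht.1)
  intro t ht
  refine ⟨?_, ?_, riccati_commute hν hV (fun u hu => (hop u hu).2.2) (hV0 ▸ rdiag_commute _ _) t ht⟩
  · refine riccati_le hν hV (fun u hu => (hVp u hu).isHermitian)
      (fun u hu => (posSemidef_real_smul (hFp u hu) (by linarith)).isHermitian)
      (V := fun u => (1 + k) • freeDiag d r₂ β K u)
      (V' := fun u => (1 + k) • (baseDiag d K u - freeDiag d r₂ β K u * freeDiag d r₂ β K u -
        pathDamp d u • freeDiag d r₂ β K u))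
      (fun u hu => (freeDiag_deriv hd (hs.trans hu.1)).const_smul (1 + k)) (fun u hu => ?_) ?_ t ht
    · have := (hop u hu).1.add (posSemidef_real_smul (hFF u hu) (show 0 ≤ k * (1 + k) by positivity))
      convert this using 1
      simp only [smul_mul_assoc, mul_smul_comm]
      module
    · rw [hV0, show (1 + k) • freeDiag d r₂ β K (segStart d i l) - freeDiag d r₂ β K (segStart d i l)
        = k • freeDiag d r₂ β K (segStart d i l) by module]
      exact posSemidef_real_smul (freeDiag_psd hd hs) hk0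
  · refine riccati_ge hν hV (fun u hu => (hVp u hu).isHermitian)
      (fun u hu => (posSemidef_real_smul (hFp u hu) (by linarith)).isHermitian)
      (V := fun u => (1 - k) • freeDiag d r₂ β K u)
      (V' := fun u => (1 - k) • (baseDiag d K u - freeDiag d r₂ β K u * freeDiag d r₂ β K u -
        pathDamp d u • freeDiag d r₂ β K u))
      (fun u hu => (freeDiag_deriv hd (hs.trans hu.1)).const_smul (1 - k)) (fun u hu => ?_) ?_ t ht
    · have := (hop u hu).2.1.add
        (posSemidef_real_smul (hFF u hu) (show 0 ≤ k * (1 - k) from mul_nonneg hk0 (by linarith)))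
      convert this using 1
      simp only [smul_mul_assoc, mul_smul_comm]
      module
    · rw [hV0, show freeDiag d r₂ β K (segStart d i l) - (1 - k) • freeDiag d r₂ β K (segStart d i l)
        = k • freeDiag d r₂ β K (segStart d i l) by module]
      exact posSemidef_real_smul (freeDiag_psd hd hs) hk0

/-- The free rates against the weight of a gauge. -/
theorem Trunc.freeRate_weight : ∃ C : ℝ, 0 < C ∧ ∀ (d : PathData) (r₂ β φ₀ : ℝ), d.Good r₂ β φ₀ →
    ∀ (t : ℝ), (d.j₀ : ℝ) ^ 6 ≤ t → ∀ (G : Fin 3) (K : ℕ) (x : PntK K),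
      C⁻¹ * blkWeight G x ≤ freeRate d r₂ β (lab x.out) t ∧
        freeRate d r₂ β (lab x.out) t ≤ 2 * C * blkWeight G x := by
  obtain ⟨C, hC, hb⟩ := freeRate_bounds_late
  refine ⟨C, hC, fun d r₂ β φ₀ hd t ht G K x => ?_⟩
  obtain ⟨h1, h2⟩ := blkWeight_bounds G x
  have hw := blkWeight_nonneg G x
  by_cases h : lab x.out = 0
  · have h0 : casSum (lab x.out) = 0 := by rw [h]; simp [casSum, cas4]
    rw [h0, Real.sqrt_zero] at h1
    have : blkWeight G x = 0 := le_antisymm h1 hw
    rw [this, h, freeRate_const hd (startTime_le hd ht)]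
    simp
  · obtain ⟨b1, b2⟩ := hb d r₂ β φ₀ hd t ht _ (lab_ok x) h
    constructor
    · exact (mul_le_mul_of_nonneg_left h1 (inv_nonneg.2 hC.le)).trans b1
    · refine b2.trans ((mul_le_mul_of_nonneg_left h2 hC.le).trans (le_of_eq ?_))
      ring

/-- The jump at the end of a segment: bounded and smoothing, uniformly in the truncation. -/
theorem segRef_jump (period : ℕ) (plan : ℕ → List StagePlan) (box : ℝ) :
    ∃ (C c₀ : ℝ) (j₁ : ℕ), 0 < C ∧ 0 < c₀ ∧ ∀ (d : PathData) (r₂ β φ₀ : ℝ), d.period = period →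
      d.plan = plan → d.box = box → j₁ ≤ d.j₀ → d.Good r₂ β φ₀ → ∀ p : Param, InBox d p →
      ∀ (K i l : ℕ) (hl : l < (d.plan (d.j₀ + i)).length),
        ‖(segRef d r₂ β p K i l (segEnd d i l) - freeDiag d r₂ β K (segEnd d i l)) *
            wgt (fun x => c₀ * blkWeight ((d.plan (d.j₀ + i))[l]).gauge x)‖ ≤
          C * speed (d.j₀ + i) * Real.exp (-(24 / 5) * (segEnd d i l - ctrlEnd d i l)) := by
  obtain ⟨K₁, hK₁, hsand⟩ := seg_sandwich period plan box
  obtain ⟨C, hC, hrate⟩ := freeRate_weight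
  obtain ⟨j₁, hj₁⟩ := exists_speed_le (min (1 / (2 * K₁)) C⁻¹) (by positivity)
  refine ⟨2 * C * K₁, 1, j₁, by positivity, one_pos, ?_⟩
  intro d r₂ β φ₀ e1 e2 e3 hj hd p hp K i l hl
  set ε := speed (d.j₀ + i) with hε
  have hε0 : 0 < ε := speed_pos (one_le_idx hd i)
  have hεs := hj₁ (d.j₀ + i) (one_le_idx hd i) (by omega)
  have hk : K₁ * ε ≤ 1 / 2 := by
    have := hεs.trans (min_le_left _ _)
    rw [← hε, le_div_iff₀ (by positivity)] at this
    linarith
  obtain ⟨hc, hc2, -, hg, hs⟩ := seg_times hd hl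
  obtain ⟨hV0, hV, hVp, -⟩ := segRef_spec hd hp K i hl
  set c := ctrlEnd d i l with hcdef
  set b := segEnd d i l with hbdef
  set G := ((d.plan (d.j₀ + i))[l]).gauge
  set u : PntK K → ℝ := fun x => blkWeight G x with hu
  have hcb : c ≤ b := by have : 0 ≤ 2 / ε := by positivity
                         linarith
  have hgap : 2 * C ≤ b - c := by
    have h1 : 2 * C ≤ 2 / ε := by
      rw [le_div_iff₀ hε0]
      nlinarith [mul_le_mul_of_nonneg_right (hεs.trans (min_le_right _ _)) hC.le,
        inv_mul_cancel₀ hC.ne']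
    linarith
  obtain ⟨s1, s2, s3⟩ := hsand d r₂ β φ₀ e1 e2 e3 hd p hp K i l hl hk c ⟨hc, hcb⟩
  have hgc : (d.j₀ : ℝ) ^ 6 ≤ c := hg.trans hc
  have hF : ((2 * C) • (diagonal fun x => (u x : ℂ) : Op (PntK K)) -
      freeDiag d r₂ β K c).PosSemidef := by
    rw [rdiag_smul, freeDiag, rdiag_sub]
    exact rdiag_posSemidef fun x => by
      have := (hrate d r₂ β φ₀ hd c hgc G K x).2
      linarith
  have hkF := posSemidef_real_smul hF (show 0 ≤ K₁ * ε by positivity)
  have hD : ‖(segRef d r₂ β p K i l c - freeDiag d r₂ β K c) * wgt (fun x => -u x)‖ ≤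
      2 * C * (K₁ * ε) := by
    refine norm_mul_wgt_neg_le ((hVp c ⟨hc, hcb⟩).isHermitian.sub
      (freeDiag_psd hd (hs.trans hc)).isHermitian) (fun x => blkWeight_nonneg G x) (by positivity)
      (s3.sub_right (rdiag_commute _ _)) ?_ ?_
    · have := s1.add hkF
      convert this using 1
      module
    · have := s2.add hkF
      convert this using 1
      module
  have h := riccati_diff_gain (c := 49 / 10) (A := truncOp d p K) (ν := pathDamp d)
    (W := segRef d r₂ β p K i l) (V := freeDiag d r₂ β K) (a := c) (b := b)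
    (f := fun x => C⁻¹ * u x) (g := fun x => -u x) hcb
    (fun t ht => damp_ge hd (hgc.trans ht.1)) (pathDamp_cont hd).continuousOn
    (fun t ht => hV t ⟨hc.trans ht.1, ht.2⟩)
    (freeDiag_riccati hd (hs.trans hc) fun t ht => seg_op_tail hd p K hl ht)
    (fun t ht => hVp t ⟨hc.trans ht.1, ht.2⟩)
    (fun t ht => freeDiag_psd hd ((hs.trans hc).trans ht.1))
    (fun t _ => rdiag_commute _ _) (fun t _ => rdiag_commute _ _)
    (fun t ht => by
      rw [freeDiag, rdiag_sub]
      exact rdiag_posSemidef fun x => by linarith [(hrate d r₂ β φ₀ hd t (hgc.trans ht.1) G K x).1])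
  refine le_trans ((norm_mul_wgt_mono _ fun x => ?_).trans h) ?_
  · show 1 * u x ≤ (b - c) * (C⁻¹ * u x) + -u x
    have h2 : 2 ≤ (b - c) * C⁻¹ := by rw [← div_eq_mul_inv, le_div_iff₀ hC]; exact hgap
    have := mul_le_mul_of_nonneg_right h2 (blkWeight_nonneg G x)
    simp only [hu] at *
    linarith
  · calc _ ≤ Real.exp (-(49 / 10) * (b - c)) * (2 * C * (K₁ * ε)) :=
          mul_le_mul_of_nonneg_left hD (Real.exp_pos _).le
      _ ≤ Real.exp (-(24 / 5) * (b - c)) * (2 * C * (K₁ * ε)) :=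
          mul_le_mul_of_nonneg_right (Real.exp_le_exp.2 (by nlinarith)) (by positivity)
      _ = _ := by ring

/-- One step of the residual recursion: decay over the segment plus the jump. -/
theorem residual_step (hd : d.Good r₂ β φ₀) {p : Param} (hp : InBox d p) (K i : ℕ) {l : ℕ}
    (hl : l < (d.plan (d.j₀ + i)).length) :
    ‖truncW d r₂ β p K (segEnd d i l) - freeDiag d r₂ β K (segEnd d i l)‖ ≤
      Real.exp (-(49 / 10) * (segEnd d i l - segStart d i l)) *
          ‖truncW d r₂ β p K (segStart d i l) - freeDiag d r₂ β K (segStart d i l)‖ +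
        ‖segRef d r₂ β p K i l (segEnd d i l) - freeDiag d r₂ β K (segEnd d i l)‖ := by
  obtain ⟨hV0, hV, hVp, -⟩ := segRef_spec hd hp K i hl
  obtain ⟨-, -, -, hg, hs⟩ := seg_times hd hl
  obtain ⟨hW, hWp⟩ := (truncW_spec hd hp K).2 (segEnd d i l)
  have h := riccati_diff_weight (c := 49 / 10) (f := fun _ => 0) (seg_le hd hl)
    (fun t ht => damp_ge hd (hg.trans ht.1)) (pathDamp_cont hd).continuousOn
    (fun t ht => hW t ⟨hs.trans ht.1, ht.2⟩) hV (fun t ht => hWp t ⟨hs.trans ht.1, ht.2⟩) hVp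
    (fun t _ => by simp)
  rw [wgt_zero, mul_one, mul_one, hV0] at h
  calc _ = ‖(truncW d r₂ β p K (segEnd d i l) - segRef d r₂ β p K i l (segEnd d i l)) +
        (segRef d r₂ β p K i l (segEnd d i l) - freeDiag d r₂ β K (segEnd d i l))‖ := by
        rw [sub_add_sub_cancel]
    _ ≤ _ := (norm_add_le _ _).trans (add_le_add_left h _)

/-- The full solution stays boundedly close to each reference, and gains smoothing one unit into
the segment, uniformly in the truncation. -/
theorem truncW_near (period : ℕ) (plan : ℕ → List StagePlan) (box : ℝ) :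
    ∃ (C c₀ : ℝ) (j₁ : ℕ), 0 < C ∧ 0 < c₀ ∧ ∀ (d : PathData) (r₂ β φ₀ : ℝ), d.period = period →
      d.plan = plan → d.box = box → j₁ ≤ d.j₀ → d.Good r₂ β φ₀ → ∀ p : Param, InBox d p →
      ∀ (K i l : ℕ) (hl : l < (d.plan (d.j₀ + i)).length),
        ‖truncW d r₂ β p K (segStart d i l) - freeDiag d r₂ β K (segStart d i l)‖ ≤
            C * speed (d.j₀ + i) ∧
        ∀ t ∈ Icc (segStart d i l + 1) (segEnd d i l),
          ‖(truncW d r₂ β p K t - segRef d r₂ β p K i l t) *
              wgt (fun x => c₀ * blkWeight ((d.plan (d.j₀ + i))[l]).gauge x)‖ ≤ C := by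
  obtain ⟨K₁, hK₁, hsand⟩ := seg_sandwich period plan box
  obtain ⟨C, hC, hrate⟩ := freeRate_weight
  obtain ⟨C₀, c₁, j₂, hC₀, hc₁, hjump⟩ := segRef_jump period plan box
  obtain ⟨j₁, hj₁⟩ := exists_speed_le (1 / (2 * K₁)) (by positivity)
  refine ⟨32 * C₀, (2 * C)⁻¹, max j₁ j₂, by positivity, by positivity, ?_⟩
  intro d r₂ β φ₀ e1 e2 e3 hj hd p hp K i l hl
  have hexp : ∀ x : ℝ, 3 ≤ x → Real.exp (-(49 / 10) * x) ≤ 1 / 64 := fun x hx => by
    have h := Real.quadratic_le_exp_of_nonneg (show 0 ≤ 49 / 10 * x by linarith)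
    rw [neg_mul, Real.exp_neg, one_div]
    exact inv_anti₀ (by norm_num) (le_trans (by nlinarith) h)
  set D := fun t => ‖truncW d r₂ β p K t - freeDiag d r₂ β K t‖ with hD
  have hstep : ∀ i l, l < (d.plan (d.j₀ + i)).length →
      D (segStart d i l) ≤ 32 * C₀ * speed (d.j₀ + i) →
      D (segEnd d i l) ≤ 2 * C₀ * speed (d.j₀ + i) := by
    intro i l hl ih
    have hε0 := speed_pos (one_le_idx hd i)
    obtain ⟨hc, hc2, h3, -, -⟩ := seg_times hd hl
    have hj' : ‖segRef d r₂ β p K i l (segEnd d i l) - freeDiag d r₂ β K (segEnd d i l)‖ ≤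
        C₀ * speed (d.j₀ + i) := by
      have h := hjump d r₂ β φ₀ e1 e2 e3 ((le_max_right _ _).trans hj) hd p hp K i l hl
      have h0 := norm_mul_wgt_mono (segRef d r₂ β p K i l (segEnd d i l) -
        freeDiag d r₂ β K (segEnd d i l)) (f := fun _ => 0)
        (g := fun x => c₁ * blkWeight ((d.plan (d.j₀ + i))[l]).gauge x)
        fun x => mul_nonneg hc₁.le (blkWeight_nonneg _ x)
      rw [wgt_zero, mul_one] at h0
      refine h0.trans (h.trans (mul_le_of_le_one_right (by positivity) ?_))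
      rw [Real.exp_le_one_iff]
      have : 0 < 2 / speed (d.j₀ + i) := by positivity
      nlinarith
    refine (residual_step hd hp K i hl).trans ?_
    have h1 := mul_le_mul (hexp (segEnd d i l - segStart d i l)
      (by show 3 ≤ segEnd d i l - stageStart d i l; linarith)) ih (norm_nonneg _) (by norm_num)
    nlinarith [mul_pos hC₀ hε0]
  have hfirst : ∀ i, D (clusterStart d i) ≤ 32 * C₀ * speed (d.j₀ + i) →
      ∀ l < (d.plan (d.j₀ + i)).length, D (segStart d i l) ≤ 32 * C₀ * speed (d.j₀ + i) := by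
    intro i h0 l
    induction l with
    | zero => intro _; show D (stageStart d i 0) ≤ _; rwa [stageStart_zero]
    | succ l ih =>
      intro hl'
      have := hstep i l (by omega) (ih (by omega))
      rw [show segEnd d i l = segStart d i (l + 1) from if_pos hl'] at this
      nlinarith [mul_pos hC₀ (speed_pos (one_le_idx hd i))]
  have hclus : ∀ i, D (clusterStart d i) ≤ 32 * C₀ * speed (d.j₀ + i) := by
    intro i
    induction i with
    | zero =>
      simp only [hD]
      rw [truncW_pre hd hp K (startTime_le hd (clusterStart_ge hd 0)) le_rfl, sub_self, norm_zero]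
      exact mul_nonneg (by positivity) (speed_pos (one_le_idx hd 0)).le
    | succ i ih =>
      have hne : 0 < (d.plan (d.j₀ + i)).length :=
        List.length_pos_iff.2 (hd.isPlan.nonempty _)
      have := hstep i ((d.plan (d.j₀ + i)).length - 1) (by omega) (hfirst i ih _ (by omega))
      rw [show segEnd d i ((d.plan (d.j₀ + i)).length - 1) = clusterStart d (i + 1) from
        if_neg (by omega)] at this
      have := speed_succ_ge (one_le_idx hd i)
      rw [show d.j₀ + (i + 1) = d.j₀ + i + 1 from rfl]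
      nlinarith
  have hinv : ∀ i, ∀ l < (d.plan (d.j₀ + i)).length,
      D (segStart d i l) ≤ 32 * C₀ * speed (d.j₀ + i) := fun i => hfirst i (hclus i)
  refine ⟨hinv i l hl, fun t ht => ?_⟩
  obtain ⟨-, -, -, hg, hs⟩ := seg_times hd hl
  obtain ⟨hV0, hV, hVp, -⟩ := segRef_spec hd hp K i hl
  obtain ⟨hW, hWp⟩ := (truncW_spec hd hp K).2 (segEnd d i l)
  have hk : K₁ * speed (d.j₀ + i) ≤ 1 / 2 := by
    have := hj₁ (d.j₀ + i) (one_le_idx hd i) (((le_max_left _ _).trans hj).trans (Nat.le_add_right _ _))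
    rw [le_div_iff₀ (by positivity)] at this
    linarith
  set G := ((d.plan (d.j₀ + i))[l]).gauge
  have hsub : ∀ u ∈ Icc (segStart d i l) t, u ∈ Icc (segStart d i l) (segEnd d i l) :=
    fun u hu => ⟨hu.1, hu.2.trans ht.2⟩
  have ht1 : segStart d i l ≤ t := by linarith [ht.1]
  have h := riccati_diff_smoothing (c := 49 / 10) (A := truncOp d p K) (ν := pathDamp d)
    (W := truncW d r₂ β p K) (V := segRef d r₂ β p K i l) (a := segStart d i l) (b := t)
    (f := fun x => (2 * C)⁻¹ * blkWeight G x) ht1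
    (fun u hu => damp_ge hd (hg.trans hu.1)) (pathDamp_cont hd).continuousOn
    (fun u hu => hW u ⟨hs.trans hu.1, (hsub u hu).2⟩) (fun u hu => hV u (hsub u hu))
    (fun u hu => hWp u ⟨hs.trans hu.1, (hsub u hu).2⟩) (fun u hu => hVp u (hsub u hu))
    (fun u hu => by
      have h3 := (hsand d r₂ β φ₀ e1 e2 e3 hd p hp K i l hl hk u (hsub u hu)).2.2
      rw [← rdiag_smul]
      exact h3.smul_left _)
    (fun u hu => by
      have h2 := (hsand d r₂ β φ₀ e1 e2 e3 hd p hp K i l hl hk u (hsub u hu)).2.1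
      have hp2 : ((1 - K₁ * speed (d.j₀ + i)) • freeDiag d r₂ β K u -
          diagonal fun x => (((2 * C)⁻¹ * blkWeight G x : ℝ) : ℂ)).PosSemidef := by
        rw [freeDiag, rdiag_smul, rdiag_sub]
        refine rdiag_posSemidef fun x => ?_
        have hr := (hrate d r₂ β φ₀ hd u (hg.trans hu.1) G K x).1
        have h0 : 0 ≤ C⁻¹ * blkWeight G x := mul_nonneg (by positivity) (blkWeight_nonneg G x)
        have hn := freeRate_nonneg hd (r₂ := r₂) (β := β) (lab x.out) (hs.trans hu.1)
        rw [mul_inv]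
        nlinarith [mul_le_mul_of_nonneg_right (show 1 / 2 ≤ 1 - K₁ * speed (d.j₀ + i) by linarith) hn]
      simpa using h2.add hp2)
  refine ((norm_mul_wgt_mono _ fun x => ?_).trans h).trans ?_
  · exact le_mul_of_one_le_left (mul_nonneg (by positivity) (blkWeight_nonneg G x))
      (by linarith [ht.1])
  · rw [hV0]
    refine le_trans (mul_le_of_le_one_left (norm_nonneg _) ?_) ((hinv i l hl).trans ?_)
    · rw [Real.exp_le_one_iff]; nlinarith
    · exact mul_le_of_le_one_right (by positivity) (speed_le_one (one_le_idx hd i))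

end Vale.Agent.P225
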