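import Vale.Agent.P225.System.Free.Basic

/-!
P225, module F: the scalar rates along the control-free path.
-/

noncomputable section

namespace Vale.Agent.P225

open Matrix SU2 Real
open scoped ContDiff

variable {d : PathData} {r₂ β φ₀ : ℝ}

/-- Equality of continuous functions passes to the end point. -/
theorem le_on_closure_eq {f g : ℝ → ℝ} {b : ℝ} (hf : Continuous f) (hg : Continuous g)
    (h : ∀ v, v < b → f v = g v) {u : ℝ} (hu : u ≤ b) : f u = g u := by
  have : Set.EqOn f g (closure (Set.Iio b)) := Set.EqOn.closure (fun v hv => h v hv) hf hg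
  exact this (by rwa [closure_Iio, Set.mem_Iic])

theorem freeRate_spec (hd : d.Good r₂ β φ₀) (l : Lbl) :
    freeRate d r₂ β l (startTime r₂) = coreRate β l (startTime r₂) ∧
      ∀ t, startTime r₂ ≤ t →
        HasDerivAt (freeRate d r₂ β l)
          (baseCoef d l t - freeRate d r₂ β l t ^ 2 - pathDamp d t * freeRate d r₂ β l t) t := by
  obtain ⟨w, h0, hw⟩ := exists_freeRate hd l
  have h : ∃ w : ℝ → ℝ, w (startTime r₂) = coreRate β l (startTime r₂) ∧
      ∀ t, startTime r₂ ≤ t →
        HasDerivAt w (baseCoef d l t - w t ^ 2 - pathDamp d t * w t) t :=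
    ⟨w, h0, fun t ht => (hw t ht).1⟩
  rw [freeRate, dif_pos h]
  exact h.choose_spec

/-- The rate is nonnegative. -/
theorem freeRate_nonneg (hd : d.Good r₂ β φ₀) (l : Lbl) {t : ℝ} (ht : startTime r₂ ≤ t) :
    0 ≤ freeRate d r₂ β l t := by
  obtain ⟨w, h0, hw⟩ := exists_freeRate hd l
  obtain ⟨f0, hf⟩ := freeRate_spec hd l
  rw [Free.rate_unique (Free.contDiff_pathDamp hd).continuous (fun u hu => hf u hu.1)
    (fun u hu => (hw u hu.1).1) (f0.trans h0.symm) t (Set.right_mem_Icc.2 ht)]
  exact (hw t ht).2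

/-- In the core it is the regular solution. -/
theorem freeRate_core (hd : d.Good r₂ β φ₀) (l : Lbl) {t : ℝ} (h0 : startTime r₂ ≤ t)
    (h1 : t ≤ Real.log r₂) : freeRate d r₂ β l t = coreRate β l t := by
  obtain ⟨f0, hf⟩ := freeRate_spec hd l
  set a := l 1
  set S : ℝ → ℝ := fun u => (l 2 : ℝ) * (l 2 + 2) / β * Real.exp (2 * u)
  have hlate := hd.pre_late
  have hpar : ∀ u, u < Real.log r₂ → basePar d u = ![0, 4, 4 * Real.exp (2 * u) / β] :=
    fun u hu => (Free.basePar_early hd (by linarith)).trans (hd.pre_core u hu)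
  have hA : ∀ u ≤ Real.log r₂, baseCoef d l u = (a : ℝ) * (a + 2) + S u := by
    have hc : Continuous fun u => (a : ℝ) * (a + 2) + S u := by fun_prop
    refine fun u hu => le_on_closure_eq (baseCoef_contDiff hd l).continuous hc (fun v hv => ?_) hu
    simp [baseCoef, hpar v hv, Fin.sum_univ_three, cas, S, a]
    ring
  have hν : ∀ u ≤ Real.log r₂, pathDamp d u = 2 := by
    refine fun u hu => le_on_closure_eq (Free.contDiff_pathDamp hd).continuous continuous_const
      (fun v hv => ?_) hu
    have he : (fun w => Real.log (Free.e2 (basePar d w))) =ᶠ[nhds v]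
        fun w => Real.log (16 / β) + 2 * w := by
      filter_upwards [Iio_mem_nhds hv] with w hw
      have := hd.β_pos
      rw [hpar w hw, show Free.e2 ![0, 4, 4 * Real.exp (2 * w) / β] = 16 / β * Real.exp (2 * w) by
        simp [Free.e2]; ring, Real.log_mul (by positivity) (by positivity), Real.log_exp]
    rw [Free.pathDamp_eq hd]
    simp only [he.deriv_eq]
    rw [(((hasDerivAt_id' v).const_mul (2 : ℝ)).const_add (Real.log (16 / β))).deriv]
    norm_num
  refine Free.rate_unique (Free.contDiff_pathDamp hd).continuous (fun u hu => hf u hu.1)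
    (v := coreRate β l) (b := Real.log r₂) (fun u hu => ?_) f0 t ⟨h0, h1⟩
  have hS0 : 0 ≤ S u := by have := hd.β_pos; positivity
  obtain ⟨D, hD, hD2⟩ := Free.hasDerivAt_corePhi a hS0
  have hS : HasDerivAt S (2 * S u) u :=
    ((((hasDerivAt_id u).const_mul 2).exp).const_mul ((l 2 : ℝ) * (l 2 + 2) / β)).congr_deriv
      (by simp [S]; ring)
  have hcr : coreRate β l = fun v => (a : ℝ) + Free.corePhi a (S v) := funext (coreRate_eq β l)
  rw [hA u hu.2, hν u hu.2, hcr]
  refine ((hD.comp u hS).const_add (a : ℝ)).congr_deriv ?_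
  linear_combination hD2

/-- After `j₀⁶ - 1` the damping is `ν`. -/
theorem pathDamp_late (hd : d.Good r₂ β φ₀) {t : ℝ} (ht' : (d.j₀ : ℝ) ^ 6 - 1 < t) :
    pathDamp d t = pathNu d t := by
  have he : (fun w => Real.log (Free.e2 (basePar d w))) =ᶠ[nhds t]
      fun w => Real.log (3 * d.scale w ^ 2) := by
    filter_upwards [Ioi_mem_nhds ht'] with w hw
    rw [(Free.basePar_late hd (le_of_lt hw)).1]
  have hs := hd.scale_pos t
  have hdl : HasDerivAt (fun w => Real.log (3 * d.scale w ^ 2))
      (3 * (2 * d.scale t * deriv d.scale t) / (3 * d.scale t ^ 2)) t :=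
    ((((hd.scale_smooth.differentiable (by norm_num)) t).hasDerivAt.fun_pow 2).const_mul
      (3 : ℝ) |>.congr_deriv (by push_cast; ring)).log (by positivity)
  rw [Free.pathDamp_eq hd]
  simp only [he.deriv_eq, hdl.deriv, pathNu]
  field_simp

/-- The path is smooth and its coefficients are comparable with the Casimir sum on any bounded
interval, uniformly after the first cluster. -/
theorem baseCoef_spec (hd : d.Good r₂ β φ₀) :
    (∀ l, ContDiff ℝ ∞ fun t => baseCoef d l t) ∧ ContDiff ℝ ∞ (pathDamp d) ∧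
      (∀ t, (d.j₀ : ℝ) ^ 6 - 1 ≤ t → pathDamp d t = pathNu d t) ∧
      ∃ C : ℝ, 0 < C ∧ ∀ t, startTime r₂ ≤ t → |pathDamp d t| ≤ C ∧
        ∀ l : Lbl, LblOK l →
          C⁻¹ * casSum l ≤ baseCoef d l t ∧ baseCoef d l t ≤ C * casSum l := by
  refine ⟨baseCoef_contDiff hd, Free.contDiff_pathDamp hd, ?_, ?_⟩
  · intro t ht
    have hopen : ∀ u, (d.j₀ : ℝ) ^ 6 - 1 < u → pathDamp d u = pathNu d u :=
      fun u hu => pathDamp_late hd hu
    have hnu : Continuous (pathNu d) := by
      unfold pathNu
      exact continuous_const.sub ((continuous_const.mul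
        (hd.scale_smooth.continuous_deriv (by norm_num))).div hd.scale_smooth.continuous
          fun u => (hd.scale_pos u).ne')
    have : Set.EqOn (pathDamp d) (pathNu d) (closure (Set.Ioi ((d.j₀ : ℝ) ^ 6 - 1))) :=
      Set.EqOn.closure (fun v hv => hopen v hv) (Free.contDiff_pathDamp hd).continuous hnu
    exact this (by rwa [closure_Ioi, Set.mem_Ici])
  · set T := (d.j₀ : ℝ) ^ 6 - 1
    have hlate := hd.pre_late
    have ht0 : startTime r₂ ≤ T := by unfold startTime; linarith
    have hne : (Set.Icc (startTime r₂) T).Nonempty := Set.nonempty_Icc.2 ht0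
    have hm : ContinuousOn (fun t => min (d.pre t 1) (d.pre t 2)) (Set.Icc (startTime r₂) T) :=
      ((hd.pre_smooth 1).continuous.min (hd.pre_smooth 2).continuous).continuousOn
    obtain ⟨t₁, -, ht₁⟩ := isCompact_Icc.exists_isMinOn hne hm
    set m := min (min (d.pre t₁ 1) (d.pre t₁ 2)) 6 with hmdef
    have hm0 : 0 < m := lt_min (lt_min (hd.pre_pos t₁).1 (hd.pre_pos t₁).2) (by norm_num)
    have hM : ContinuousOn (fun t => d.pre t 0 + d.pre t 1 + d.pre t 2 + |pathDamp d t|)
        (Set.Icc (startTime r₂) T) :=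
      ((((hd.pre_smooth 0).continuous.add (hd.pre_smooth 1).continuous).add
        (hd.pre_smooth 2).continuous).add
        (Free.contDiff_pathDamp hd).continuous.abs).continuousOn
    obtain ⟨M₀, hM₀⟩ := (isCompact_Icc.image_of_continuousOn hM).bddAbove
    set M := max M₀ 12 with hMdef
    have hM12 : 12 ≤ M := le_max_right _ _
    refine ⟨M + 3 / m, by positivity, fun t ht => ?_⟩
    have hM1 : M ≤ M + 3 / m := le_add_of_nonneg_right (by positivity)
    have key : |pathDamp d t| ≤ M ∧ ∃ G : Fin 3, ∀ k, 0 ≤ basePar d t k ∧ basePar d t k ≤ M ∧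
        (k ≠ G → m ≤ basePar d t k) := by
      rcases le_or_gt t T with h | h
      · have h6 : t < (d.j₀ : ℝ) ^ 6 := by linarith
        rw [Free.basePar_early hd h6]
        have hb := (hM₀ (Set.mem_image_of_mem _ ⟨ht, h⟩)).trans (le_max_left M₀ 12)
        rw [← hMdef] at hb
        obtain ⟨p1, p2⟩ := hd.pre_pos t
        have p0 := hd.pre_nonneg t 0
        have pa := abs_nonneg (pathDamp d t)
        have hmt : min (d.pre t₁ 1) (d.pre t₁ 2) ≤ min (d.pre t 1) (d.pre t 2) := ht₁ ⟨ht, h⟩
        have hm' : m ≤ min (d.pre t 1) (d.pre t 2) := (min_le_left _ _).trans hmt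
        obtain ⟨hm1, hm2⟩ := le_min_iff.1 hm'
        refine ⟨by linarith, 0, fun k => ?_⟩
        fin_cases k <;> simp only [Fin.zero_eta, Fin.mk_one, Fin.reduceFinMk]
        · exact ⟨p0, by linarith, fun hk => absurd rfl hk⟩
        · exact ⟨p1.le, by linarith, fun _ => hm1⟩
        · exact ⟨p2.le, by linarith, fun _ => hm2⟩
      · obtain ⟨G, hG⟩ := (Free.basePar_late hd h.le).2
        refine ⟨?_, G, fun k => ⟨(hG k).1, (hG k).2.1.trans hM12,
          fun hk => (min_le_right _ _).trans ((hG k).2.2 hk)⟩⟩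
        have hν : pathDamp d t = pathNu d t := pathDamp_late hd h
        obtain ⟨n1, n2⟩ := hd.nu_mem t h.le
        rw [hν, abs_of_nonneg (by linarith)]
        linarith
    obtain ⟨hdamp, G, hG⟩ := key
    refine ⟨hdamp.trans hM1, fun l hl => ⟨?_, ?_⟩⟩
    · have h1 : baseCoef d l t ≥ m * (cas (l (G + 1)) + cas (l (G + 2))) := by
        have a1 := mul_le_mul_of_nonneg_right ((hG (G + 1)).2.2 (by simp)) (cas_nonneg' (l (G + 1)))
        have a2 := mul_le_mul_of_nonneg_right ((hG (G + 2)).2.2 (by simp)) (cas_nonneg' (l (G + 2)))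
        have a0 := mul_nonneg (hG G).1 (cas_nonneg' (l G))
        have hsum : baseCoef d l t = basePar d t G * cas (l G) +
            basePar d t (G + 1) * cas (l (G + 1)) + basePar d t (G + 2) * cas (l (G + 2)) := by
          rw [baseCoef, Fin.sum_univ_three]
          fin_cases G <;> simp <;> ring
        linarith
      have h2 := casSum_le_two hl G
      have h3 : casSum l * (m / 3) ≤ baseCoef d l t := by nlinarith
      calc (M + 3 / m)⁻¹ * casSum l ≤ m / 3 * casSum l := by
            refine mul_le_mul_of_nonneg_right ?_ (casSum_nonneg l)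
            rw [show m / 3 = (3 / m)⁻¹ from (inv_div 3 m).symm]
            exact inv_anti₀ (by positivity) (show 3 / m ≤ M + 3 / m by linarith)
        _ ≤ _ := by linarith
    · refine le_trans ?_ (mul_le_mul_of_nonneg_right hM1 (casSum_nonneg l))
      rw [casSum_eq, Finset.mul_sum]
      exact Finset.sum_le_sum fun k _ => mul_le_mul_of_nonneg_right (hG k).2.1 (cas_nonneg' _)

/-- Size of the rates. -/
theorem freeRate_bounds (hd : d.Good r₂ β φ₀) :
    ∃ C : ℝ, 0 < C ∧ ∀ t, startTime r₂ ≤ t → ∀ l : Lbl, LblOK l → l ≠ 0 →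
      C⁻¹ * Real.sqrt (casSum l) ≤ freeRate d r₂ β l t ∧
        freeRate d r₂ β l t ≤ C * Real.sqrt (casSum l) := by
  obtain ⟨C, hC, hspec⟩ := (baseCoef_spec hd).2.2.2
  set E := Real.exp (2 * startTime r₂) / β
  have hβ := hd.β_pos
  have hE : 0 < E := by positivity
  have q34 : ∀ {l : Lbl}, l ≠ 0 → 4 / 5 ≤ Real.sqrt (casSum l) := fun h =>
    Real.le_sqrt_of_sq_le (by linarith [casSum_pos h])
  -- constants at the starting time
  set lo := 4 * min 1 E / 3 with hlo
  set hi := 4 * (1 + E) with hhi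
  have hlo0 : 0 < lo := by have := lt_min one_pos hE; positivity
  set k₀ := min (min (1 / (3 + 3 * C ^ 2)) 1) (min (lo / (4 * (2 + hi))) 1) with hk
  have hk0 : 0 < k₀ := by positivity
  have hk1 : k₀ ≤ 1 / (3 + 3 * C ^ 2) := (min_le_left _ _).trans (min_le_left _ _)
  have hk2 : k₀ ≤ lo / (4 * (2 + hi)) := (min_le_right _ _).trans (min_le_left _ _)
  set K := max (3 * C + 2) (1 + hi) with hK
  set C' := max K k₀⁻¹
  refine ⟨C', lt_max_of_lt_right (inv_pos.2 hk0), fun t ht l hl hl0 => ?_⟩
  obtain ⟨f0, hf⟩ := freeRate_spec hd l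
  set S := casSum l
  set q := Real.sqrt S
  have hq := q34 hl0
  have hq2 : q * q = S := Real.mul_self_sqrt (casSum_nonneg l)
  -- the start
  have hstart : k₀ * q ≤ freeRate d r₂ β l (startTime r₂) ∧
      freeRate d r₂ β l (startTime r₂) ≤ K * q := by
    rw [f0]
    obtain ⟨-, h1, h2⟩ := coreRate_bounds hd l (startTime r₂)
    set A := (l 1 : ℝ) * (l 1 + 2) + (l 2 : ℝ) * (l 2 + 2) / β * Real.exp (2 * startTime r₂)
    have hAE : A = 4 * cas (l 1) + 4 * E * cas (l 2) := by simp only [A, E, cas]; ring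
    have c0 := cas_nonneg' (l 0)
    have c1 := cas_nonneg' (l 1)
    have c2 := cas_nonneg' (l 2)
    have hAlo : lo * S ≤ A := by
      have h3 : S ≤ 3 * (cas (l 1) + cas (l 2)) := casSum_le_two hl 0
      have m1 : min 1 E * cas (l 1) ≤ 1 * cas (l 1) :=
        mul_le_mul_of_nonneg_right (min_le_left _ _) c1
      have m2 : min 1 E * cas (l 2) ≤ E * cas (l 2) :=
        mul_le_mul_of_nonneg_right (min_le_right _ _) c2
      rw [hAE, hlo]
      nlinarith [lt_min one_pos hE]
    have hAhi : A ≤ hi * S := by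
      have h3 : S = cas (l 0) + cas (l 1) + cas (l 2) :=
        (casSum_eq l).trans (Fin.sum_univ_three _)
      rw [hAE, hhi, h3]
      nlinarith [mul_nonneg hE.le c0, mul_nonneg hE.le c1]
    set R := Real.sqrt (1 + A)
    have hA0 : 0 ≤ A := (mul_nonneg hlo0.le (casSum_nonneg l)).trans hAlo
    have hR : R * R = 1 + A := Real.mul_self_sqrt (by linarith)
    have hR1 : 1 ≤ R := Real.one_le_sqrt.2 (by linarith)
    have hhi4 : 4 ≤ hi := by rw [hhi]; linarith
    have hRhi : R - 1 ≤ (1 + hi) * q := by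
      by_contra hcon
      push Not at hcon
      have hb : 0 ≤ (1 + hi) * q := mul_nonneg (by linarith) (by linarith)
      have e1 := mul_le_mul hcon.le hcon.le hb (by linarith)
      have e2 : (R - 1) * (R - 1) ≤ hi * (q * q) := by
        rw [hq2]
        linarith [show (R - 1) * (R - 1) = 1 + A + 1 - 2 * R by rw [← hR]; ring]
      have e3 : 0 < (1 + hi + hi ^ 2) * (q * q) := by positivity
      linarith [show (1 + hi) * q * ((1 + hi) * q) = (1 + hi + hi ^ 2) * (q * q) + hi * (q * q) by
        ring]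
    constructor
    · have h4 : lo * S ≤ (R - 1) * ((1 + hi) * q + 2) := by
        nlinarith [mul_le_mul_of_nonneg_left hRhi (show 0 ≤ R - 1 by linarith)]
      have h5 : (1 + hi) * q + 2 ≤ 2 * (2 + hi) * q := by nlinarith
      have h6 : lo * q * q ≤ (R - 1) * (2 * (2 + hi)) * q := by
        calc lo * q * q = lo * S := by rw [mul_assoc, hq2]
          _ ≤ (R - 1) * ((1 + hi) * q + 2) := h4
          _ ≤ (R - 1) * (2 * (2 + hi) * q) := mul_le_mul_of_nonneg_left h5 (by linarith)
          _ = _ := by ring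
      have h7 : lo * q ≤ (R - 1) * (2 * (2 + hi)) := le_of_mul_le_mul_right h6 (by linarith)
      refine le_trans ?_ h1
      refine le_trans (mul_le_mul_of_nonneg_right hk2 (by linarith)) ?_
      rw [div_mul_eq_mul_div, div_le_iff₀ (by positivity)]
      linarith
    · exact h2.trans (hRhi.trans (mul_le_mul_of_nonneg_right (le_max_right _ _) (by linarith)))
  -- barriers
  have hw0 : ∀ u ∈ Set.Icc (startTime r₂) t, 0 ≤ freeRate d r₂ β l u :=
    fun u hu => freeRate_nonneg hd l hu.1
  have up := Free.barrier (f := fun u => K * q - freeRate d r₂ β l u)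
    (fun u hu => ((hf u hu.1).const_sub _).continuousAt.continuousWithinAt)
    (fun u hu => (hf u hu.1.le).const_sub _) (by linarith [hstart.2]) (fun u hu hneg => by
      obtain ⟨hν, hA⟩ := hspec u hu.1.le
      obtain ⟨-, hA2⟩ := hA l hl
      have hν' := abs_le.1 hν
      set w := freeRate d r₂ β l u
      have hwK : (3 * C + 2) * q ≤ w :=
        (mul_le_mul_of_nonneg_right (le_max_left _ _) (by linarith)).trans (by linarith)
      have hCq : 0 ≤ C * q := mul_nonneg hC.le (by linarith)
      have hCq' : C * (4 / 5) ≤ C * q := mul_le_mul_of_nonneg_left hq hC.le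
      have : C * S ≤ w * (w + pathDamp d u) := by
        have h1 : (3 * C + 2) * q - C ≤ w + pathDamp d u := by linarith
        have h2 : q * C ≤ (3 * C + 2) * q - C := by linarith
        calc C * S = q * (q * C) := by rw [← hq2]; ring
          _ ≤ w * (w + pathDamp d u) := mul_le_mul (by linarith) (h2.trans h1) (by positivity)
              (by linarith)
      have : w * (w + pathDamp d u) = w ^ 2 + pathDamp d u * w := by ring
      linarith) t (Set.right_mem_Icc.2 ht)
  have low := Free.barrier (f := fun u => freeRate d r₂ β l u - k₀ * q)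
    (fun u hu => ((hf u hu.1).sub_const _).continuousAt.continuousWithinAt)
    (fun u hu => (hf u hu.1.le).sub_const _) (by linarith [hstart.1]) (fun u hu hneg => by
      obtain ⟨hν, hA⟩ := hspec u hu.1.le
      obtain ⟨hA1, -⟩ := hA l hl
      have hν' := abs_le.1 hν
      have hw := hw0 u (Set.Ioo_subset_Icc_self hu)
      have hkq : 0 ≤ k₀ * q := mul_nonneg hk0.le (by linarith)
      set w := freeRate d r₂ β l u
      set ν := pathDamp d u
      have hC1 : C * (C⁻¹ * S) = S := by field_simp
      have hkk : k₀ ≤ 1 := (min_le_left _ _).trans (min_le_right _ _)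
      have hk' : k₀ * (3 + 3 * C ^ 2) ≤ 1 := by rwa [le_div_iff₀ (by positivity)] at hk1
      have h1 : w * (w + ν) ≤ k₀ * q * (k₀ * q + C) := by
        rcases le_or_gt 0 (w + ν) with h | h
        · exact mul_le_mul (by linarith) (by linarith) h (by positivity)
        · exact (mul_nonpos_of_nonneg_of_nonpos hw h.le).trans (by positivity)
      have h2 : k₀ * q * (k₀ * q + C) ≤ C⁻¹ * S := by
        have e1 : k₀ * C * (k₀ * q) + k₀ * C ^ 2 ≤ q := by
          have a4 : 3 * k₀ + 3 * (k₀ * C ^ 2) ≤ 1 := le_of_eq_of_le (by ring) hk'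
          have a1 : k₀ * C ≤ 1 / 6 := by
            have := mul_le_mul_of_nonneg_left
              (show 6 * C ≤ 3 + 3 * C ^ 2 by linarith [sq_nonneg (C - 1)]) hk0.le
            linarith
          have a2 : k₀ * q ≤ q := mul_le_of_le_one_left (by linarith) hkk
          have a3 : k₀ * C * (k₀ * q) ≤ 1 / 6 * q := mul_le_mul a1 a2 (by positivity) (by norm_num)
          linarith
        rw [inv_mul_eq_div, le_div_iff₀ hC, ← hq2]
        calc k₀ * q * (k₀ * q + C) * C = q * (k₀ * C * (k₀ * q) + k₀ * C ^ 2) := by ring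
          _ ≤ q * q := mul_le_mul_of_nonneg_left e1 (by linarith)
      linarith [show w * (w + ν) = w ^ 2 + ν * w by ring]) t (Set.right_mem_Icc.2 ht)
  have hKC : K ≤ C' := le_max_left _ _
  have hkC : C'⁻¹ ≤ k₀ := by
    rw [← inv_inv k₀]; exact inv_anti₀ (inv_pos.2 hk0) (le_max_right _ _)
  exact ⟨(mul_le_mul_of_nonneg_right hkC (by linarith)).trans (by linarith),
    le_trans (by linarith) (mul_le_mul_of_nonneg_right hKC (by linarith))⟩

/-- The frozen value of the rate for coefficient `a`. -/
def rootRate (a : ℝ) : ℝ := (-5 + Real.sqrt (25 + 4 * a)) / 2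

theorem rootRate_spec {a : ℝ} (ha : 0 ≤ a) :
    0 ≤ rootRate a ∧ rootRate a ^ 2 + 5 * rootRate a = a := by
  have h1 := Real.sq_sqrt (show (0 : ℝ) ≤ 25 + 4 * a by linarith)
  have h2 : (5 : ℝ) ≤ Real.sqrt (25 + 4 * a) := Real.le_sqrt_of_sq_le (by linarith)
  unfold rootRate
  exact ⟨by linarith, by linear_combination h1 / 4⟩

theorem expo_eq_rootRate (P : ℝ) (l : Lbl) : expo P l = rootRate (P * casSum l) := by
  simp only [expo, rootRate, casSum]
  ring_nf

/-- Where the coefficient is within `η` of a constant, the rate forgets its past at rate `4.9`. -/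
theorem freeRate_near (hd : d.Good r₂ β φ₀) (l : Lbl) {a₀ η : ℝ} {s t : ℝ}
    (h0 : (d.j₀ : ℝ) ^ 6 - 1 ≤ s) (hst : s ≤ t) (ha : 0 ≤ a₀)
    (hcoef : ∀ u ∈ Set.Icc s t, |baseCoef d l u - a₀| ≤ η ∧ |pathDamp d u - 5| ≤ η) :
    |freeRate d r₂ β l t - rootRate a₀| ≤
      Real.exp (-(49 / 10) * (t - s)) * |freeRate d r₂ β l s - rootRate a₀| +
        η * (1 + rootRate a₀) / (49 / 10) := by
  obtain ⟨-, hf⟩ := freeRate_spec hd l
  have hts : startTime r₂ ≤ (d.j₀ : ℝ) ^ 6 - 1 := by
    have := hd.pre_late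
    unfold startTime
    linarith
  obtain ⟨hr0, hr⟩ := rootRate_spec ha
  set r := rootRate a₀
  set w := freeRate d r₂ β l
  have hder : ∀ u ∈ Set.Icc s t, HasDerivAt (fun u => w u - r)
      (((baseCoef d l u - a₀) - (pathDamp d u - 5) * r) -
        (w u + r + pathDamp d u) * (w u - r)) u := fun u hu => by
    refine ((hf u (by linarith [hu.1])).sub_const r).congr_deriv ?_
    linear_combination -hr
  refine (Free.decay (f := fun u => w u - r) (by norm_num : (0 : ℝ) < 49 / 10) hder
    (fun u hu => ?_) (fun u hu => ?_) t (Set.right_mem_Icc.2 hst)).trans_eq (by rfl)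
  · have hw := freeRate_nonneg hd l (t := u) (by linarith [hu.1])
    have h1 := (hd.nu_mem u (h0.trans hu.1)).1
    rw [← (baseCoef_spec hd).2.2.1 u (h0.trans hu.1)] at h1
    linarith
  · obtain ⟨h1, h2⟩ := hcoef u hu
    calc _ ≤ |baseCoef d l u - a₀| + |(pathDamp d u - 5) * r| := abs_sub _ _
      _ ≤ η + η * r := by
          rw [abs_mul, abs_of_nonneg hr0]
          gcongr
      _ = _ := by ring

/-- From the first cluster on the bounds do not depend on the path. -/
theorem freeRate_bounds_late : ∃ C : ℝ, 0 < C ∧ ∀ (d : PathData) (r₂ β φ₀ : ℝ),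
    d.Good r₂ β φ₀ → ∀ (t : ℝ), (d.j₀ : ℝ) ^ 6 ≤ t → ∀ l : Lbl, LblOK l → l ≠ 0 →
      C⁻¹ * Real.sqrt (casSum l) ≤ freeRate d r₂ β l t ∧
        freeRate d r₂ β l t ≤ C * Real.sqrt (casSum l) := by
  refine ⟨6, by norm_num, fun d r₂ β φ₀ hd t ht l hl hl0 => ?_⟩
  obtain ⟨-, hf⟩ := freeRate_spec hd l
  set s := (d.j₀ : ℝ) ^ 6 - 1 with hs
  have hts : startTime r₂ ≤ s := by
    have := hd.pre_late
    unfold startTime
    linarith
  set S := casSum l
  set q := Real.sqrt S
  have hq2 : q * q = S := Real.mul_self_sqrt (casSum_nonneg l)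
  have hq : 4 / 5 ≤ q := Real.le_sqrt_of_sq_le (by linarith [casSum_pos hl0])
  set w := freeRate d r₂ β l
  have hcoef : ∀ u, s ≤ u → baseCoef d l u ≤ 12 * S ∧ 2 * S ≤ baseCoef d l u ∧
      49 / 10 ≤ pathDamp d u ∧ pathDamp d u ≤ 5 ∧ 0 ≤ w u := fun u hu => by
    obtain ⟨G, hG⟩ := (Free.basePar_late hd hu).2
    obtain ⟨n1, n2⟩ := hd.nu_mem u hu
    rw [← (baseCoef_spec hd).2.2.1 u hu] at n1 n2
    refine ⟨?_, ?_, n1, n2, freeRate_nonneg hd l (hts.trans hu)⟩
    · rw [baseCoef, show S = ∑ k, cas (l k) from casSum_eq l, Finset.mul_sum]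
      exact Finset.sum_le_sum fun k _ => mul_le_mul_of_nonneg_right (hG k).2.1 (cas_nonneg' _)
    · have h2 := casSum_le_two hl G
      have a1 := mul_le_mul_of_nonneg_right ((hG (G + 1)).2.2 (by simp)) (cas_nonneg' (l (G + 1)))
      have a2 := mul_le_mul_of_nonneg_right ((hG (G + 2)).2.2 (by simp)) (cas_nonneg' (l (G + 2)))
      have a0 := mul_nonneg (hG G).1 (cas_nonneg' (l G))
      rw [show baseCoef d l u = basePar d u G * cas (l G) +
          basePar d u (G + 1) * cas (l (G + 1)) + basePar d u (G + 2) * cas (l (G + 2)) by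
        rw [baseCoef, Fin.sum_univ_three]; fin_cases G <;> simp <;> ring]
      linarith
  have hw : ∀ u, s ≤ u →
      HasDerivAt w (baseCoef d l u - w u ^ 2 - pathDamp d u * w u) u := fun u hu =>
    hf u (hts.trans hu)
  have hst : s + 1 ≤ t := by linarith
  constructor
  · -- growth from zero in one unit of time
    have h1 := Free.barrier (f := fun u => w u - q / 5 * (u - s)) (a := s) (b := s + 1)
      (fun u hu => ((hw u hu.1).continuousAt.sub (by fun_prop)).continuousWithinAt)
      (fun u hu => (hw u hu.1.le).sub (((hasDerivAt_id u).sub_const s).const_mul (q / 5)))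
      (by simp; exact (hcoef s le_rfl).2.2.2.2) (fun u hu hneg => by
        obtain ⟨-, hA, -, hν, hw0⟩ := hcoef u hu.1.le
        have hwq : w u ≤ q / 5 := by
          have hle : q / 5 * (u - s) ≤ q / 5 * 1 :=
            mul_le_mul_of_nonneg_left (by linarith [hu.2]) (by positivity)
          linarith
        nlinarith) (s + 1) (Set.right_mem_Icc.2 (by linarith))
    have h2 := Free.barrier (f := fun u => w u - q / 5) (a := s + 1) (b := t)
      (fun u hu => ((hw u (by linarith [hu.1])).continuousAt.sub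
        continuousAt_const).continuousWithinAt)
      (fun u hu => (hw u (by linarith [hu.1])).sub_const _) (by linarith) (fun u hu hneg => by
        obtain ⟨-, hA, -, hν, hw0⟩ := hcoef u (by linarith [hu.1])
        nlinarith) t (Set.right_mem_Icc.2 hst)
    linarith
  · -- the past is forgotten in one unit of time
    have hcont : ContinuousOn w (Set.Icc s t) := fun u hu =>
      (hw u hu.1).continuousAt.continuousWithinAt
    obtain ⟨M, hM⟩ := (isCompact_Icc.image_of_continuousOn hcont).bddAbove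
    set δ := (max M 1)⁻¹ with hδ
    have hδ0 : 0 < δ := by positivity
    have hδ1 : δ ≤ 1 := inv_le_one_of_one_le₀ (le_max_right _ _)
    have hpos : ∀ u ∈ Set.Icc (s + δ) t, (0 : ℝ) < u - s := fun u hu => by linarith [hu.1]
    have h1 := Free.barrier (f := fun u => 4 * q + (u - s)⁻¹ - w u) (a := s + δ) (b := t)
      (fun u hu => ((continuousAt_const.add ((continuousAt_id.sub continuousAt_const).inv₀
        (hpos u hu).ne')).sub (hw u (by linarith [hu.1])).continuousAt).continuousWithinAt)
      (fun u hu => ((((hasDerivAt_id u).sub_const s).fun_inv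
        (hpos u (Set.Ioo_subset_Icc_self hu)).ne').const_add (4 * q)).sub
          (hw u (by linarith [hu.1])))
      (by
        have := hM (Set.mem_image_of_mem w (show s + δ ∈ Set.Icc s t from
          ⟨by linarith, by linarith⟩))
        simp only [add_sub_cancel_left]
        rw [show δ⁻¹ = max M 1 by simp [δ]]
        linarith [le_max_left M 1])
      (fun u hu hneg => by
        obtain ⟨hA, -, hν, -, hw0⟩ := hcoef u (by linarith [hu.1])
        simp only [id] at hneg ⊢
        set z := (u - s)⁻¹ with hz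
        have hz0 : 0 ≤ z := inv_nonneg.2 (hpos u (Set.Ioo_subset_Icc_self hu)).le
        have e : -1 / (u - s) ^ 2 = -(z ^ 2) := by rw [hz, inv_pow, neg_div, one_div]
        have h5 : (4 * q + z) ^ 2 ≤ w u ^ 2 := pow_le_pow_left₀ (by linarith) (by linarith) 2
        rw [e]
        nlinarith) t (Set.right_mem_Icc.2 (by linarith))
    have : (t - s)⁻¹ ≤ 1 := inv_le_one_of_one_le₀ (by linarith)
    linarith

/-- Integrated over a dwell at the normal point the rate is the exponent up to a bounded error and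
the drift of the scale; the constant does not depend on the path. -/
theorem freeRate_dwell : ∃ C : ℝ, ∀ (d : PathData) (r₂ β φ₀ : ℝ), d.Good r₂ β φ₀ →
    ∀ (l : Lbl) (s t : ℝ), LblOK l → l ≠ 0 → (d.j₀ : ℝ) ^ 6 ≤ s → s ≤ t →
    (∀ u ∈ Set.Icc s t, ∀ k, basePar d u k = d.scale u) →
    |(∫ u in s..t, freeRate d r₂ β l u) - expo (27 / 4) l * (t - s)| ≤
      C * Real.sqrt (casSum l) *
        (1 + (t - s) * (27 / 4 - d.scale s + (5 - pathNu d s))) := by
  obtain ⟨C, hC, hB⟩ := freeRate_bounds_late
  refine ⟨C + 9, fun d r₂ β φ₀ hd l s t hl hl0 h0 hst hpar => ?_⟩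
  obtain ⟨-, hf⟩ := freeRate_spec hd l
  have hts : startTime r₂ ≤ s := by
    have := hd.pre_late
    unfold startTime
    linarith
  set S := casSum l
  set q := Real.sqrt S
  have hS := casSum_nonneg l
  have hq2 : q * q = S := Real.mul_self_sqrt hS
  have hq : 4 / 5 ≤ q := Real.le_sqrt_of_sq_le (by linarith [casSum_pos hl0])
  rw [expo_eq_rootRate]
  obtain ⟨hr0, hr⟩ := rootRate_spec (show 0 ≤ 27 / 4 * S by positivity)
  set r := rootRate (27 / 4 * S)
  -- `q / 4 ≤ r ≤ 3 q`
  have hrq : q / 4 ≤ r ∧ r ≤ 3 * q := by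
    constructor <;> by_contra hcon <;> push Not at hcon <;> nlinarith
  set w := freeRate d r₂ β l
  set φs := φ₀ * (1 + s) ^ (-(6 / 5) : ℝ)
  set δ := 27 / 4 - d.scale s
  have hs1 : 0 < 1 + s := by
    have : (0 : ℝ) ≤ (d.j₀ : ℝ) ^ 6 := by positivity
    linarith
  have hφ0 : 0 ≤ φs := mul_nonneg hd.φ₀_pos.le (Real.rpow_nonneg hs1.le _)
  have hδ : 0 ≤ δ := sub_nonneg.2 (hd.scale_mem s (by linarith)).2
  have hjs : ∀ u ∈ Set.Icc s t, (d.j₀ : ℝ) ^ 6 - 1 ≤ u := fun u hu => by linarith [hu.1]
  have hder : ∀ u ∈ Set.Icc s t, HasDerivAt (fun u => w u - r)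
      (((baseCoef d l u - 27 / 4 * S) - (pathDamp d u - 5) * r) -
        (w u + r + pathDamp d u) * (w u - r)) u := fun u hu => by
    refine ((hf u (by linarith [hu.1])).sub_const r).congr_deriv ?_
    linear_combination -hr
  have hlam : 0 < r + 49 / 10 := by linarith
  have key := Free.decay (f := fun u => w u - r) (M := δ * S + φs * r) hlam hder
    (fun u hu => by
      have hw := freeRate_nonneg hd l (t := u) (by linarith [hu.1])
      have h1 := (hd.nu_mem u (hjs u hu)).1
      rw [← (baseCoef_spec hd).2.2.1 u (hjs u hu)] at h1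
      linarith)
    (fun u hu => by
      have hbc : baseCoef d l u = d.scale u * S := by
        simp only [baseCoef, hpar u hu, S, casSum_eq, Finset.mul_sum]
      have hP := hd.scale_mem u (hjs u hu)
      have hmono := hd.scale_mono hu.1
      have hdd : pathDamp d u - 5 = -(φ₀ * (1 + u) ^ (-(6 / 5) : ℝ)) := by
        rw [(baseCoef_spec hd).2.2.1 u (hjs u hu), pathNu, hd.scale_deriv u (hjs u hu)]
        have := (hd.scale_pos u).ne'
        field_simp
        ring
      have hφ : φ₀ * (1 + u) ^ (-(6 / 5) : ℝ) ≤ φs := mul_le_mul_of_nonneg_left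
        (Real.rpow_le_rpow_of_nonpos hs1 (by linarith [hu.1]) (by norm_num)) hd.φ₀_pos.le
      have hφu : 0 ≤ φ₀ * (1 + u) ^ (-(6 / 5) : ℝ) :=
        mul_nonneg hd.φ₀_pos.le (Real.rpow_nonneg (by linarith [hu.1]) _)
      refine (abs_sub _ _).trans (add_le_add ?_ ?_)
      · rw [hbc, ← sub_mul, abs_mul, abs_of_nonneg hS]
        refine mul_le_mul_of_nonneg_right ?_ hS
        rw [abs_le]
        have : δ = 27 / 4 - d.scale s := rfl
        constructor <;> linarith [hP.1, hP.2]
      · rw [hdd, abs_mul, abs_neg, abs_of_nonneg hr0, abs_of_nonneg hφu]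
        exact mul_le_mul_of_nonneg_right hφ hr0)
  have hcont : ContinuousOn w (Set.uIcc s t) := fun u hu => by
    rw [Set.uIcc_of_le hst] at hu
    exact (hf u (by linarith [hu.1])).continuousAt.continuousWithinAt
  have hM : (δ * S + φs * r) / (r + 49 / 10) ≤ 4 * q * δ + φs := by
    rw [div_le_iff₀ hlam]
    nlinarith [mul_le_mul_of_nonneg_left hrq.1 (mul_nonneg hδ (by linarith : 0 ≤ q))]
  set e := Real.exp
  have hbound : |∫ u in s..t, (w u - r)| ≤
      (1 / (r + 49 / 10)) * |w s - r| + (t - s) * (4 * q * δ + φs) := by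
    refine (intervalIntegral.abs_integral_le_integral_abs hst).trans ?_
    have hint : IntervalIntegrable (fun u => |w u - r|) MeasureTheory.volume s t :=
      (hcont.sub continuousOn_const).abs.intervalIntegrable
    have hg : Continuous fun u => Real.exp (-(r + 49 / 10) * (u - s)) * |w s - r| +
        (4 * q * δ + φs) := by fun_prop
    refine (intervalIntegral.integral_mono_on hst hint (hg.intervalIntegrable _ _)
      fun u hu => (key u hu).trans (add_le_add le_rfl hM)).trans ?_
    have hd' : ∀ u ∈ Set.uIcc s t, HasDerivAt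
        (fun u => -(1 / (r + 49 / 10)) * (Real.exp (-(r + 49 / 10) * (u - s)) * |w s - r|) +
          (4 * q * δ + φs) * u)
        (Real.exp (-(r + 49 / 10) * (u - s)) * |w s - r| + (4 * q * δ + φs)) u := fun u _ => by
      refine (((((hasDerivAt_id u).sub_const s).const_mul (-(r + 49 / 10))).exp.mul_const
        |w s - r|).const_mul (-(1 / (r + 49 / 10)))).add ((hasDerivAt_id u).const_mul _)
        |>.congr_deriv ?_
      simp only [id, mul_one]
      field_simp
    rw [intervalIntegral.integral_eq_sub_of_hasDerivAt hd' (hg.intervalIntegrable _ _)]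
    simp only [sub_self, mul_zero, Real.exp_zero, one_mul]
    have : 0 ≤ 1 / (r + 49 / 10) * (Real.exp (-(r + 49 / 10) * (t - s)) * |w s - r|) := by
      positivity
    nlinarith
  have hsplit : (∫ u in s..t, w u) - r * (t - s) = ∫ u in s..t, (w u - r) := by
    rw [intervalIntegral.integral_sub hcont.intervalIntegrable intervalIntegrable_const,
      intervalIntegral.integral_const, smul_eq_mul]
    ring
  rw [hsplit]
  refine hbound.trans ?_
  obtain ⟨-, hup⟩ := hB d r₂ β φ₀ hd s h0 l hl hl0
  have hw := freeRate_nonneg hd l (t := s) hts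
  have habs : |w s - r| ≤ (C + 3) * q := by
    rw [abs_le]
    constructor <;> nlinarith
  have h1 : 1 / (r + 49 / 10) * |w s - r| ≤ (C + 3) * q := by
    refine le_trans (mul_le_of_le_one_left (abs_nonneg _) ?_) habs
    rw [div_le_one hlam]
    linarith
  have hts' : 0 ≤ t - s := sub_nonneg.2 hst
  rw [show 5 - pathNu d s = φs by
    rw [pathNu, hd.scale_deriv s (by linarith)]
    have := (hd.scale_pos s).ne'
    field_simp
    ring]
  have n1 : 0 ≤ (t - s) * δ * q := by positivity
  have n2 : (t - s) * φs * (4 / 5) ≤ (t - s) * φs * q :=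
    mul_le_mul_of_nonneg_left hq (mul_nonneg hts' hφ0)
  have n3 : 0 ≤ C * q * ((t - s) * δ) := by positivity
  have n4 : 0 ≤ C * q * ((t - s) * φs) := by positivity
  calc _ ≤ (C + 3) * q + (t - s) * (4 * q * δ + φs) := add_le_add h1 le_rfl
    _ ≤ _ := by nlinarith

end Vale.Agent.P225
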