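import Vale.Agent.P225.System.StageExact.Band
import Vale.Agent.P225.System.StageExact.Near
import Vale.Agent.P225.System.StageExact.Cont

/-!
P225, module F: one stage of the path on the band, all parts.
-/
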